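import Mathlib

/-!
Elementary bookkeeping for finite projective dimension of modules (universe 0).
-/

set_option autoImplicit false

namespace Crest.Agent.R178

open CategoryTheory CategoryTheory.Abelian

variable {A : Type} [Ring A]

/-- projective dimension `< n` of an unbundled module -/
def PDLT (A : Type) [Ring A] (M : Type) [AddCommGroup M] [Module A M] (n : ℕ) : Prop :=
  HasProjectiveDimensionLT (ModuleCat.of A M) n

/-- finite projective dimension of an unbundled module -/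
def FinPD (A : Type) [Ring A] (M : Type) [AddCommGroup M] [Module A M] : Prop :=
  ∃ n : ℕ, PDLT A M n

section
variable {M₁ M₂ M₃ : Type} [AddCommGroup M₁] [Module A M₁] [AddCommGroup M₂] [Module A M₂]
  [AddCommGroup M₃] [Module A M₃]

/-- the short complex of two linear maps forming an exact pair -/
abbrev sc (f : M₁ →ₗ[A] M₂) (g : M₂ →ₗ[A] M₃) (h : Function.Exact f g) :
    ShortComplex (ModuleCat.{0} A) :=
  ModuleCat.shortComplexOfCompEqZero f g h.linearMap_comp_eq_zero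

theorem sc_shortExact (f : M₁ →ₗ[A] M₂) (g : M₂ →ₗ[A] M₃) (h : Function.Exact f g)
    (hf : Function.Injective f) (hg : Function.Surjective g) : (sc f g h).ShortExact :=
  ModuleCat.shortComplex_shortExact _ h hf hg

theorem PDLT.mono {n m : ℕ} (h : PDLT A M₁ n) (hnm : n ≤ m) : PDLT A M₁ m := by
  unfold PDLT at *
  exact hasProjectiveDimensionLT_of_ge _ n m hnm

theorem FinPD.of_projective [h : Module.Projective A M₁] : FinPD A M₁ := by
  refine ⟨1, ?_⟩
  unfold PDLT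
  have := (IsProjective.iff_projective (R := A) M₁).1 h
  infer_instance

theorem FinPD.of_subsingleton [Subsingleton M₁] : FinPD A M₁ := by
  have : Module.Free A M₁ := Module.Free.of_subsingleton A M₁
  exact FinPD.of_projective

theorem FinPD.left (f : M₁ →ₗ[A] M₂) (g : M₂ →ₗ[A] M₃) (h : Function.Exact f g)
    (hf : Function.Injective f) (hg : Function.Surjective g)
    (h₂ : FinPD A M₂) (h₃ : FinPD A M₃) : FinPD A M₁ := by
  obtain ⟨a, ha⟩ := h₂
  obtain ⟨b, hb⟩ := h₃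
  exact ⟨a + b, (sc_shortExact f g h hf hg).hasProjectiveDimensionLT_X₁ (a + b)
    (ha.mono (by omega)) (hb.mono (by omega))⟩

theorem FinPD.mid (f : M₁ →ₗ[A] M₂) (g : M₂ →ₗ[A] M₃) (h : Function.Exact f g)
    (hf : Function.Injective f) (hg : Function.Surjective g)
    (h₁ : FinPD A M₁) (h₃ : FinPD A M₃) : FinPD A M₂ := by
  obtain ⟨a, ha⟩ := h₁
  obtain ⟨b, hb⟩ := h₃
  exact ⟨a + b, (sc_shortExact f g h hf hg).hasProjectiveDimensionLT_X₂ (a + b)
    (ha.mono (by omega)) (hb.mono (by omega))⟩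

theorem FinPD.right (f : M₁ →ₗ[A] M₂) (g : M₂ →ₗ[A] M₃) (h : Function.Exact f g)
    (hf : Function.Injective f) (hg : Function.Surjective g)
    (h₁ : FinPD A M₁) (h₂ : FinPD A M₂) : FinPD A M₃ := by
  obtain ⟨a, ha⟩ := h₁
  obtain ⟨b, hb⟩ := h₂
  exact ⟨a + b + 1, (sc_shortExact f g h hf hg).hasProjectiveDimensionLT_X₃ (a + b)
    (ha.mono (by omega)) (hb.mono (by omega))⟩

theorem PDLT.of_retract (i : M₁ →ₗ[A] M₂) (r : M₂ →ₗ[A] M₁) (h : ∀ x, r (i x) = x) {n : ℕ}
    (h₂ : PDLT A M₂ n) : PDLT A M₁ n := by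
  unfold PDLT at *
  let R : Retract (ModuleCat.of A M₁) (ModuleCat.of A M₂) :=
    { i := ModuleCat.ofHom i, r := ModuleCat.ofHom r, retract := by ext x; simpa using h x }
  exact R.hasProjectiveDimensionLT n

theorem FinPD.of_retract (i : M₁ →ₗ[A] M₂) (r : M₂ →ₗ[A] M₁) (h : ∀ x, r (i x) = x)
    (h₂ : FinPD A M₂) : FinPD A M₁ := by
  obtain ⟨a, ha⟩ := h₂
  exact ⟨a, ha.of_retract i r h⟩

theorem FinPD.prod (h₁ : FinPD A M₁) (h₂ : FinPD A M₂) : FinPD A (M₁ × M₂) :=
  FinPD.mid (LinearMap.inl A M₁ M₂) (LinearMap.snd A M₁ M₂) Function.Exact.inl_snd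
    LinearMap.inl_injective LinearMap.snd_surjective h₁ h₂

/-- if the identity factors as a sum through two modules of finite projective dimension -/
theorem FinPD.of_sum₂ {M : Type} [AddCommGroup M] [Module A M]
    (i₁ : M →ₗ[A] M₁) (r₁ : M₁ →ₗ[A] M) (i₂ : M →ₗ[A] M₂) (r₂ : M₂ →ₗ[A] M)
    (h : ∀ x, r₁ (i₁ x) + r₂ (i₂ x) = x) (h₁ : FinPD A M₁) (h₂ : FinPD A M₂) : FinPD A M :=
  FinPD.of_retract (i₁.prod i₂) (r₁.coprod r₂) (fun x => by simpa using h x) (h₁.prod h₂)

theorem FinPD.of_sum₃ {M : Type} [AddCommGroup M] [Module A M]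
    (i₁ : M →ₗ[A] M₁) (r₁ : M₁ →ₗ[A] M) (i₂ : M →ₗ[A] M₂) (r₂ : M₂ →ₗ[A] M)
    (i₃ : M →ₗ[A] M₃) (r₃ : M₃ →ₗ[A] M)
    (h : ∀ x, r₁ (i₁ x) + r₂ (i₂ x) + r₃ (i₃ x) = x) (h₁ : FinPD A M₁) (h₂ : FinPD A M₂)
    (h₃ : FinPD A M₃) : FinPD A M :=
  FinPD.of_sum₂ (i₁.prod i₂) (r₁.coprod r₂) i₃ r₃ (fun x => by simpa using h x) (h₁.prod h₂) h₃

/-- kernel and cokernel of a map out of a module of finite projective dimension -/
theorem FinPD.of_ker_coker (f : M₁ →ₗ[A] M₂) (h₁ : FinPD A M₁) (hk : FinPD A (LinearMap.ker f))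
    (hc : FinPD A (M₂ ⧸ LinearMap.range f)) : FinPD A M₂ := by
  have hr : FinPD A (LinearMap.range f) := by
    refine FinPD.right (LinearMap.ker f).subtype f.rangeRestrict ?_ (Submodule.injective_subtype _)
      f.surjective_rangeRestrict hk h₁
    intro x
    simp [Subtype.ext_iff]
  refine FinPD.mid (LinearMap.range f).subtype (LinearMap.range f).mkQ ?_
    (Submodule.injective_subtype _) (Submodule.mkQ_surjective _) hr hc
  intro x
  simp

end

end Crest.Agent.R178
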