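import Mathlib
import Crest.Agent.R178.PD

/-!
Trivial extensions `A = B ⋉ N` where `N = C^S` is given by a surjection `π : B → C` (right action)
and an algebra map `Θ : B → M_S(C)` (left action).
-/

set_option autoImplicit false
set_option linter.unusedSectionVars false

namespace Crest.Agent.R178

open CategoryTheory CategoryTheory.Abelian TrivSqZeroExt

/-- The data of the construction. -/
structure Datum (B C S : Type) [Ring B] [Ring C] [Algebra ℂ B] [Algebra ℂ C] [Fintype S]
    [DecidableEq S] where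
  π : B →ₐ[ℂ] C
  Θ : B →ₐ[ℂ] Matrix S S C
  surj : Function.Surjective π
  e : B
  he : e * e = e
  πe : π e = 0
  ker : ∀ b, π b = 0 → b * e = b

variable {B C S : Type} [Ring B] [Ring C] [Algebra ℂ B] [Algebra ℂ C] [Fintype S] [DecidableEq S]

namespace Datum

variable (T : Datum B C S)

/-- restriction of a `C`-module to `B` -/
def Res (_T : Datum B C S) (Y : Type) : Type := Y

/-- `Y^S` with the `B`-action through `Θ` -/
def E (_T : Datum B C S) (Y : Type) : Type := S → Y

section
variable (Y : Type) [AddCommGroup Y] [Module C Y]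

instance : AddCommGroup (T.Res Y) := inferInstanceAs (AddCommGroup Y)
instance : Module B (T.Res Y) := Module.compHom Y T.π.toRingHom

instance : AddCommGroup (T.E Y) := inferInstanceAs (AddCommGroup (S → Y))

instance : Module B (T.E Y) where
  smul b z := fun s => ∑ t, T.Θ b s t • (z t : Y)
  one_smul z := by
    funext s
    change ∑ t, T.Θ 1 s t • (z t : Y) = z s
    simp [Matrix.one_apply]
  mul_smul a b z := by
    funext s
    change ∑ t, T.Θ (a * b) s t • (z t : Y) = ∑ t, T.Θ a s t • ∑ u, T.Θ b t u • (z u : Y)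
    simp only [map_mul, Matrix.mul_apply, Finset.sum_smul, Finset.smul_sum, mul_smul]
    exact Finset.sum_comm
  smul_zero b := by
    funext s
    change ∑ t, T.Θ b s t • (0 : Y) = 0
    simp
  smul_add b z w := by
    funext s
    change ∑ t, T.Θ b s t • ((z t : Y) + w t) = ∑ t, T.Θ b s t • (z t : Y) + ∑ t, T.Θ b s t • (w t : Y)
    simp [Finset.sum_add_distrib]
  add_smul a b z := by
    funext s
    change ∑ t, T.Θ (a + b) s t • (z t : Y) = ∑ t, T.Θ a s t • (z t : Y) + ∑ t, T.Θ b s t • (z t : Y)
    simp [Finset.sum_add_distrib, add_smul]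
  zero_smul z := by
    funext s
    change ∑ t, T.Θ 0 s t • (z t : Y) = 0
    simp

variable {Y}

theorem E_smul_apply (b : B) (z : T.E Y) (s : S) :
    (b • z) s = ∑ t, T.Θ b s t • (z t : Y) := rfl

theorem E_add_apply (z w : T.E Y) (s : S) : (z + w) s = z s + w s := rfl
theorem E_zero_apply (s : S) : (0 : T.E Y) s = 0 := rfl

theorem E_sum_apply {ι : Type} (t : Finset ι) (z : ι → T.E Y) (s : S) :
    (∑ i ∈ t, z i) s = ∑ i ∈ t, (z i s : Y) := Finset.sum_apply (M := fun _ => Y) s t z

theorem Res_smul (b : B) (y : T.Res Y) : b • y = (T.π b • (show Y from y) : Y) := rfl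

end

/-- the bimodule -/
def N : Type := T.E C

instance : AddCommGroup T.N := inferInstanceAs (AddCommGroup (T.E C))
instance : Module B T.N := inferInstanceAs (Module B (T.E C))
instance : Module ℂ T.N := inferInstanceAs (Module ℂ (S → C))

instance : Module Bᵐᵒᵖ T.N where
  smul b n := fun s => (n s : C) * T.π b.unop
  one_smul n := by
    funext s
    change (n s : C) * T.π 1 = n s
    simp
  mul_smul a b n := by
    funext s
    change (n s : C) * T.π (b.unop * a.unop) = (n s : C) * T.π b.unop * T.π a.unop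
    simp [mul_assoc]
  smul_zero b := by
    funext s
    change (0 : C) * T.π b.unop = 0
    simp
  smul_add b n m := by
    funext s
    change ((n s : C) + m s) * T.π b.unop = (n s : C) * T.π b.unop + (m s : C) * T.π b.unop
    simp [add_mul]
  add_smul a b n := by
    funext s
    change (n s : C) * T.π (a.unop + b.unop) = (n s : C) * T.π a.unop + (n s : C) * T.π b.unop
    simp [mul_add]
  zero_smul n := by
    funext s
    change (n s : C) * T.π 0 = 0
    simp

theorem N_smul_apply (b : B) (n : T.N) (s : S) : (b • n) s = ∑ t, T.Θ b s t * (n t : C) := rfl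
theorem N_op_smul_apply (b : Bᵐᵒᵖ) (n : T.N) (s : S) : (b • n) s = (n s : C) * T.π b.unop := rfl
theorem N_c_smul_apply (c : ℂ) (n : T.N) (s : S) : (c • n) s = c • (n s : C) := rfl
theorem N_add_apply (n m : T.N) (s : S) : (n + m) s = (n s : C) + m s := rfl
theorem N_zero_apply (s : S) : (0 : T.N) s = (0 : C) := rfl

instance : SMulCommClass B Bᵐᵒᵖ T.N where
  smul_comm a b n := by
    funext s
    simp only [N_smul_apply, N_op_smul_apply, Finset.sum_mul, mul_assoc]

instance : IsScalarTower ℂ B T.N where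
  smul_assoc c b n := by
    funext s
    simp only [N_smul_apply, N_c_smul_apply, map_smul, Matrix.smul_apply, Finset.smul_sum,
      smul_mul_assoc]

instance : IsScalarTower ℂ Bᵐᵒᵖ T.N where
  smul_assoc c b n := by
    funext s
    simp only [N_op_smul_apply, N_c_smul_apply, MulOpposite.unop_smul, map_smul, mul_smul_comm]

/-- the trivial extension algebra -/
abbrev A : Type := TrivSqZeroExt B T.N

instance [FiniteDimensional ℂ B] [FiniteDimensional ℂ C] : FiniteDimensional ℂ T.A :=
  inferInstanceAs (FiniteDimensional ℂ (B × (S → C)))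

/-- inflation of a `B`-module to `A` -/
def Infl (_T : Datum B C S) (X : Type) : Type := X

section
variable (X : Type) [AddCommGroup X] [Module B X]
instance : AddCommGroup (T.Infl X) := inferInstanceAs (AddCommGroup X)
instance : Module T.A (T.Infl X) := Module.compHom X (TrivSqZeroExt.fstHom ℂ B T.N).toRingHom

variable {X}
theorem Infl_smul (a : T.A) (x : T.Infl X) : a • x = (a.fst • (show X from x) : X) := rfl

variable {X' : Type} [AddCommGroup X'] [Module B X']

/-- inflation of a linear map -/
def inflMap (f : X →ₗ[B] X') : T.Infl X →ₗ[T.A] T.Infl X' where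
  toFun := f
  map_add' := f.map_add
  map_smul' a x := f.map_smul a.fst x

theorem inflMap_apply (f : X →ₗ[B] X') (x : X) : T.inflMap f x = f x := rfl

end

/-- restriction of an `A`-module to `B` -/
def ResA (_T : Datum B C S) (M : Type) : Type := M

section
variable (M : Type) [AddCommGroup M] [Module T.A M]
instance : AddCommGroup (T.ResA M) := inferInstanceAs (AddCommGroup M)
instance : Module B (T.ResA M) := Module.compHom M (TrivSqZeroExt.inlHom B T.N)

variable {M}
theorem ResA_smul (b : B) (x : T.ResA M) : b • x = ((inl b : T.A) • (show M from x) : M) := rfl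
end

/-- the induced module `A ⊗_B Y = Y × Y^S` -/
def F (Y : Type) : Type := Y × T.E Y

section
variable (Y : Type) [AddCommGroup Y] [Module C Y]

instance : AddCommGroup (T.F Y) := inferInstanceAs (AddCommGroup (Y × T.E Y))

/-- the pairing `N × Y → Y^S` -/
def star {Y : Type} [AddCommGroup Y] [Module C Y] (n : T.N) (y : Y) : T.E Y :=
  fun s => (n s : C) • y

variable {Y}
theorem star_add_left (n m : T.N) (y : Y) : T.star (n + m) y = T.star n y + T.star m y := by
  funext s
  simp only [star, N_add_apply, E_add_apply, add_smul]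

theorem star_add_right (n : T.N) (y y' : Y) : T.star n (y + y') = T.star n y + T.star n y' := by
  funext s
  simp only [star, E_add_apply, smul_add]

theorem star_zero_left (y : Y) : T.star 0 y = 0 := by
  funext s
  simp only [star, N_zero_apply, E_zero_apply, zero_smul]

theorem star_zero_right (n : T.N) : T.star n (0 : Y) = 0 := by
  funext s
  simp only [star, E_zero_apply, smul_zero]

theorem star_smul_left (b : B) (n : T.N) (y : Y) : T.star (b • n) y = b • T.star n y := by
  funext s
  simp only [star, N_smul_apply, E_smul_apply, Finset.sum_smul, mul_smul]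

theorem star_op_smul_left (b : B) (n : T.N) (y : Y) :
    T.star (MulOpposite.op b • n) y = T.star n (T.π b • y) := by
  funext s
  simp only [star, N_op_smul_apply, MulOpposite.unop_op, mul_smul]

variable (Y)

instance : Module T.A (T.F Y) where
  smul a p := (T.π a.fst • p.1, a.fst • p.2 + T.star a.snd p.1)
  one_smul p := by
    change (T.π 1 • p.1, (1 : B) • p.2 + T.star 0 p.1) = p
    simp [star_zero_left]
  mul_smul a b p := by
    change (T.π (a.fst * b.fst) • p.1,
        (a.fst * b.fst) • p.2 + T.star (a.fst • b.snd + MulOpposite.op b.fst • a.snd) p.1) =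
      (T.π a.fst • T.π b.fst • p.1,
        a.fst • (b.fst • p.2 + T.star b.snd p.1) + T.star a.snd (T.π b.fst • p.1))
    simp only [map_mul, mul_smul, star_add_left, star_smul_left, star_op_smul_left, smul_add,
      add_assoc]
  smul_zero a := by
    change (T.π a.fst • (0 : Y), a.fst • (0 : T.E Y) + T.star a.snd (0 : Y)) = (0, 0)
    simp [star_zero_right]
  smul_add a p q := by
    change (T.π a.fst • (p.1 + q.1), a.fst • (p.2 + q.2) + T.star a.snd (p.1 + q.1)) =
      (T.π a.fst • p.1 + T.π a.fst • q.1,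
        (a.fst • p.2 + T.star a.snd p.1) + (a.fst • q.2 + T.star a.snd q.1))
    simp only [smul_add, star_add_right]
    congr 1
    abel
  add_smul a b p := by
    change (T.π (a.fst + b.fst) • p.1, (a.fst + b.fst) • p.2 + T.star (a.snd + b.snd) p.1) =
      (T.π a.fst • p.1 + T.π b.fst • p.1,
        (a.fst • p.2 + T.star a.snd p.1) + (b.fst • p.2 + T.star b.snd p.1))
    simp only [map_add, add_smul, star_add_left]
    congr 1
    abel
  zero_smul p := by
    change (T.π 0 • p.1, (0 : B) • p.2 + T.star 0 p.1) = (0, 0)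
    simp [star_zero_left]

variable {Y}

/-- constructor for elements of `F Y` -/
def mkF (y : Y) (z : T.E Y) : T.F Y := (y, z)

theorem F_smul (a : T.A) (y : Y) (z : T.E Y) :
    a • T.mkF y z = T.mkF (T.π a.fst • y) (a.fst • z + T.star a.snd y) := rfl

theorem mkF_add (y y' : Y) (z z' : T.E Y) :
    T.mkF y z + T.mkF y' z' = T.mkF (y + y') (z + z') := rfl

theorem mkF_zero : T.mkF (0 : Y) 0 = 0 := rfl

theorem mkF_eta (p : T.F Y) : T.mkF p.1 p.2 = p := rfl

theorem mkF_inj {y y' : Y} {z z' : T.E Y} : T.mkF y z = T.mkF y' z' ↔ y = y' ∧ z = z' :=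
  Prod.mk.injEq _ _ _ _ ▸ Iff.rfl

variable (Y)

/-- the inclusion `N ⊗ Y → A ⊗ Y` -/
def incl : T.Infl (T.E Y) →ₗ[T.A] T.F Y where
  toFun z := T.mkF 0 z
  map_add' z w := by rw [mkF_add, add_zero]; rfl
  map_smul' a z := by
    rw [RingHom.id_apply, F_smul, star_zero_right, smul_zero, add_zero]; rfl

/-- the projection `A ⊗ Y → Y` -/
def proj : T.F Y →ₗ[T.A] T.Infl (T.Res Y) where
  toFun p := p.1
  map_add' _ _ := rfl
  map_smul' _ _ := rfl

theorem incl_injective : Function.Injective (T.incl Y) := fun _ _ h => (T.mkF_inj.1 h).2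

theorem proj_surjective : Function.Surjective (T.proj Y) := fun y => ⟨T.mkF y 0, rfl⟩

theorem incl_proj_exact : Function.Exact (T.incl Y) (T.proj Y) := by
  intro p
  constructor
  · intro h
    refine ⟨p.2, ?_⟩
    have h' : p.1 = 0 := h
    rw [← T.mkF_eta p, h']
    rfl
  · rintro ⟨z, rfl⟩
    rfl

variable {Y} {Y' : Type} [AddCommGroup Y'] [Module C Y']

/-- functoriality of `E` -/
def mapE (u : Y →ₗ[C] Y') : T.E Y →ₗ[B] T.E Y' where
  toFun z := fun s => u (z s)
  map_add' z w := by
    funext s
    simp only [E_add_apply, map_add]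
  map_smul' b z := by
    funext s
    simp only [E_smul_apply, map_sum, map_smul, RingHom.id_apply]

theorem mapE_apply (u : Y →ₗ[C] Y') (z : T.E Y) (s : S) : T.mapE u z s = u (z s) := rfl

theorem mapE_star (u : Y →ₗ[C] Y') (n : T.N) (y : Y) :
    T.mapE u (T.star n y) = T.star n (u y) := by
  funext s
  simp only [mapE_apply, star, map_smul]

/-- functoriality of `F` -/
def mapF (u : Y →ₗ[C] Y') : T.F Y →ₗ[T.A] T.F Y' where
  toFun p := T.mkF (u p.1) (T.mapE u p.2)
  map_add' p q := by
    rw [mkF_add, ← map_add, ← map_add]; rfl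
  map_smul' a p := by
    rw [RingHom.id_apply, F_smul, ← map_smul, ← map_smul, ← mapE_star, ← map_add]; rfl

theorem mapF_mkF (u : Y →ₗ[C] Y') (y : Y) (z : T.E Y) :
    T.mapF u (T.mkF y z) = T.mkF (u y) (T.mapE u z) := rfl

theorem mapE_injective (u : Y →ₗ[C] Y') (hu : Function.Injective u) :
    Function.Injective (T.mapE u) := fun _ _ h => funext fun s => hu (congrFun h s)

theorem mapE_surjective (u : Y →ₗ[C] Y') (hu : Function.Surjective u) :
    Function.Surjective (T.mapE u) := fun z =>
  ⟨fun s => (hu (z s)).choose, funext fun s => (hu (z s)).choose_spec⟩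

theorem mapF_injective (u : Y →ₗ[C] Y') (hu : Function.Injective u) :
    Function.Injective (T.mapF u) := fun p q h => by
  have h' := T.mkF_inj.1 h
  rw [← T.mkF_eta p, ← T.mkF_eta q, hu h'.1, T.mapE_injective u hu h'.2]

theorem mapF_surjective (u : Y →ₗ[C] Y') (hu : Function.Surjective u) :
    Function.Surjective (T.mapF u) := fun p => by
  obtain ⟨y, hy⟩ := hu p.1
  obtain ⟨z, hz⟩ := T.mapE_surjective u hu p.2
  exact ⟨T.mkF y z, by rw [mapF_mkF, hy, hz]; rfl⟩

variable {Y'' : Type} [AddCommGroup Y''] [Module C Y'']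

theorem mapE_exact (u : Y →ₗ[C] Y') (v : Y' →ₗ[C] Y'') (h : Function.Exact u v) :
    Function.Exact (T.mapE u) (T.mapE v) := by
  intro z
  constructor
  · intro hz
    have : ∀ s, ∃ y, u y = z s := fun s => (h (z s)).1 (congrFun hz s)
    exact ⟨fun s => (this s).choose, funext fun s => (this s).choose_spec⟩
  · rintro ⟨w, rfl⟩
    funext s
    exact (h _).2 ⟨w s, rfl⟩

theorem mapF_exact (u : Y →ₗ[C] Y') (v : Y' →ₗ[C] Y'') (h : Function.Exact u v) :
    Function.Exact (T.mapF u) (T.mapF v) := by
  intro p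
  constructor
  · intro hp
    have h' := T.mkF_inj.1 (hp.trans T.mkF_zero.symm)
    obtain ⟨y, hy⟩ := (h p.1).1 h'.1
    obtain ⟨z, hz⟩ := (T.mapE_exact u v h p.2).1 h'.2
    exact ⟨T.mkF y z, by rw [mapF_mkF, hy, hz]; rfl⟩
  · rintro ⟨q, rfl⟩
    rw [← T.mkF_eta q, mapF_mkF, mapF_mkF, (h _).2 ⟨q.1, rfl⟩,
      (T.mapE_exact u v h _).2 ⟨q.2, rfl⟩, mkF_zero]

end

/-- the basis vectors of `N` -/
def nb (s : S) : T.N := Pi.single (M := fun _ => C) s 1

theorem N_sum_apply {ι : Type} (t : Finset ι) (n : ι → T.N) (s : S) :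
    (∑ i ∈ t, n i) s = ∑ i ∈ t, (n i s : C) := Finset.sum_apply (M := fun _ => C) s t n

theorem nb_apply (s t : S) : T.nb s t = if t = s then (1 : C) else 0 := by
  unfold nb
  rw [Pi.single_apply]

section adj
variable {Y : Type} [AddCommGroup Y] [Module C Y] {M : Type} [AddCommGroup M] [Module T.A M]

theorem inr_sum {ι : Type} (t : Finset ι) (n : ι → T.N) :
    (inr (∑ i ∈ t, n i) : T.A) = ∑ i ∈ t, (inr (n i) : T.A) :=
  map_sum (TrivSqZeroExt.inrHom B T.N) n t

/-- `inr n • g y` in terms of the basis vectors -/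
theorem inr_smul_eq (g : Y →+ M) (hg : ∀ b y, g (T.π b • y) = (inl b : T.A) • g y) (n : T.N)
    (y : Y) : (inr n : T.A) • g y = ∑ s, (inr (T.nb s) : T.A) • g ((n s : C) • y) := by
  choose σ hσ using T.surj
  have hn : n = ∑ s, MulOpposite.op (σ (n s)) • T.nb s := by
    funext t
    rw [N_sum_apply]
    simp [N_op_smul_apply, nb_apply, hσ]
  conv_lhs => rw [hn, inr_sum, Finset.sum_smul]
  refine Finset.sum_congr rfl fun s _ => ?_
  conv_rhs => rw [← hσ (n s), hg, ← mul_smul, inr_mul_inl]

/-- the extension of a `B`-linear map `Y → M` to an `A`-linear map `A ⊗ Y → M` -/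
def extend (g : Y →+ M) (hg : ∀ b y, g (T.π b • y) = (inl b : T.A) • g y) : T.F Y →ₗ[T.A] M where
  toFun p := g p.1 + ∑ s, (inr (T.nb s) : T.A) • g (p.2 s)
  map_add' p q := by
    change g (p.1 + q.1) + ∑ s, (inr (T.nb s) : T.A) • g (p.2 s + q.2 s) = _
    simp only [map_add, smul_add, Finset.sum_add_distrib]
    abel
  map_smul' a p := by
    change g (T.π a.fst • p.1) + ∑ s, (inr (T.nb s) : T.A) •
      g ((a.fst • p.2) s + (a.snd s : C) • p.1) = a • _
    have ha : a = inl a.fst + inr a.snd := (inl_fst_add_inr_snd_eq a).symm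
    conv_rhs => rw [ha]
    simp only [map_add, smul_add, add_smul, Finset.sum_add_distrib, hg, Finset.smul_sum]
    rw [← T.inr_smul_eq g hg]
    have h1 : ∀ s, (inr a.snd : T.A) • (inr (T.nb s) : T.A) • g (p.2 s) = 0 := fun s => by
      rw [← mul_smul, inr_mul_inr, zero_smul]
    have h2 : ∀ t, (inl a.fst : T.A) • (inr (T.nb t) : T.A) • g (p.2 t) =
        ∑ s, (inr (T.nb s) : T.A) • g (T.Θ a.fst s t • p.2 t) := fun t => by
      rw [← mul_smul, inl_mul_inr, T.inr_smul_eq g hg]
      refine Finset.sum_congr rfl fun s _ => ?_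
      simp [N_smul_apply, nb_apply]
    simp only [h1, h2, Finset.sum_const_zero, add_zero, E_smul_apply, map_sum, Finset.smul_sum]
    rw [Finset.sum_comm]
    abel

theorem extend_mkF_zero (g : Y →+ M) (hg : ∀ b y, g (T.π b • y) = (inl b : T.A) • g y) (y : Y) :
    T.extend g hg (T.mkF y 0) = g y := by
  change g y + ∑ s, (inr (T.nb s) : T.A) • g 0 = g y
  simp

theorem mkF_eq_sum (y : Y) (z : T.E Y) :
    T.mkF y z = T.mkF y 0 + ∑ s, (inr (T.nb s) : T.A) • T.mkF (z s) 0 := by
  have h : ∀ s, (inr (T.nb s) : T.A) • T.mkF (z s) 0 = T.incl Y (T.star (T.nb s) (z s)) := by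
    intro s
    rw [F_smul]
    simp only [fst_inr, map_zero, zero_smul, snd_inr, zero_add]
    rfl
  simp only [h]
  rw [← map_sum]
  change _ = T.mkF y 0 + T.mkF 0 _
  rw [mkF_add, add_zero, zero_add]
  congr 1
  funext t
  refine Eq.trans ?_ (T.E_sum_apply Finset.univ (fun s => T.star (T.nb s) (z s)) t).symm
  simp [star, nb_apply]

theorem F_hom_ext (f g : T.F Y →ₗ[T.A] M) (h : ∀ y, f (T.mkF y 0) = g (T.mkF y 0)) : f = g := by
  ext p
  rw [← T.mkF_eta p, mkF_eq_sum]
  simp only [map_add, map_sum, map_smul, h]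

end adj

end Datum

end Crest.Agent.R178
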