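import Mathlib
import Crest.Agent.R178.Abstract

/-!
Projective dimension over the trivial extension.
-/

set_option autoImplicit false
set_option linter.unusedSectionVars false

namespace Crest.Agent.R178

open CategoryTheory CategoryTheory.Abelian TrivSqZeroExt

variable {B C S : Type} [Ring B] [Ring C] [Algebra ℂ B] [Algebra ℂ C] [Fintype S] [DecidableEq S]

namespace Datum

variable (T : Datum B C S)

section
variable {M : Type} [AddCommGroup M] [Module T.A M]

/-- an element killed by `e` defines a `B`-linear map out of `C` -/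
theorem exists_hom_of_e (m : M) (hm : (inl T.e : T.A) • m = 0) :
    ∃ φ : C →+ M, ∀ b, φ (T.π b) = (inl b : T.A) • m := by
  choose σ hσ using T.surj
  have key : ∀ b b', T.π b = T.π b' → (inl b : T.A) • m = (inl b' : T.A) • m := by
    intro b b' h
    have h0 : T.π (b - b') = 0 := by rw [map_sub, h, sub_self]
    have h1 := T.ker _ h0
    have h2 : (inl (b - b') : T.A) • m = 0 := by
      rw [← h1, inl_mul, mul_smul, hm, smul_zero]
    rw [inl_sub, sub_smul] at h2
    exact sub_eq_zero.1 h2
  refine ⟨⟨⟨fun c => (inl (σ c) : T.A) • m, ?_⟩, ?_⟩, ?_⟩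
  · rw [key (σ 0) 0 (by rw [hσ, map_zero]), inl_zero, zero_smul]
  · intro c c'
    change (inl (σ (c + c')) : T.A) • m = (inl (σ c) : T.A) • m + (inl (σ c') : T.A) • m
    rw [key (σ (c + c')) (σ c + σ c') (by rw [map_add, hσ, hσ, hσ]), inl_add, add_smul]
  · intro b
    exact key _ _ (hσ _)

end

theorem projective_F_free (ι : Type) : Module.Projective T.A (T.F (ι →₀ C)) := by
  classical
  refine Module.Projective.of_lifting_property'' fun q hq => ?_
  have h1 : ∀ i : ι, ∃ m, q m = T.mkF (Finsupp.single i 1) 0 ∧ (inl T.e : T.A) • m = 0 := by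
    intro i
    obtain ⟨m, hm⟩ := hq (T.mkF (Finsupp.single i 1) 0)
    refine ⟨m - (inl T.e : T.A) • m, ?_, ?_⟩
    · rw [map_sub, map_smul, hm, F_smul]
      simp [T.πe, star_zero_left, mkF_zero]
    · rw [smul_sub, ← mul_smul, ← inl_mul, T.he, sub_self]
  choose m hm hm' using h1
  choose φ hφ using fun i => T.exists_hom_of_e (m i) (hm' i)
  let g : (ι →₀ C) →+ (T.F (ι →₀ C) →₀ T.A) := Finsupp.liftAddHom φ
  have hg : ∀ b y, g (T.π b • y) = (inl b : T.A) • g y := by
    intro b y
    induction y using Finsupp.induction_linear with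
    | zero => simp
    | add y y' h h' => rw [smul_add, map_add, map_add, h, h', smul_add]
    | single i c =>
      obtain ⟨b', rfl⟩ := T.surj c
      simp only [g, Finsupp.smul_single, Finsupp.liftAddHom_apply_single, smul_eq_mul]
      rw [← map_mul, hφ, hφ, inl_mul, mul_smul]
  refine ⟨T.extend g hg, T.F_hom_ext _ _ fun y => ?_⟩
  rw [LinearMap.comp_apply, extend_mkF_zero, LinearMap.id_apply]
  induction y using Finsupp.induction_linear with
  | zero => simp [mkF_zero]
  | add y y' h h' => rw [map_add, map_add, h, h', mkF_add, add_zero]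
  | single i c =>
    obtain ⟨b', rfl⟩ := T.surj c
    simp only [g, Finsupp.liftAddHom_apply_single]
    rw [hφ, map_smul, hm, F_smul]
    simp [star_zero_left]

variable {Y : Type} [AddCommGroup Y] [Module C Y]

theorem mapF_comp_id {Y' : Type} [AddCommGroup Y'] [Module C Y'] (i : Y →ₗ[C] Y') (r : Y' →ₗ[C] Y)
    (h : ∀ y, r (i y) = y) (p : T.F Y) : T.mapF r (T.mapF i p) = p := by
  rw [← T.mkF_eta p, mapF_mkF, mapF_mkF, h]
  congr 1
  funext s
  exact h _

theorem projective_F [h : Module.Projective C Y] : Module.Projective T.A (T.F Y) := by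
  obtain ⟨s, hs⟩ := h.out
  have := T.projective_F_free Y
  exact Module.Projective.of_split (T.mapF s) (T.mapF (Finsupp.linearCombination C id))
    (LinearMap.ext fun p => T.mapF_comp_id _ _ hs p)

theorem linComb_surj (Y : Type) [AddCommGroup Y] [Module C Y] :
    Function.Surjective (Finsupp.linearCombination C (id : Y → Y)) :=
  Finsupp.linearCombination_id_surjective C Y

theorem finPD_F_aux (n : ℕ) : ∀ (Y : Type) [AddCommGroup Y] [Module C Y], PDLT C Y (n + 1) →
    FinPD T.A (T.F Y) := by
  induction n with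
  | zero =>
    intro Y _ _ h
    have h' : Projective (ModuleCat.of C Y) := projective_iff_hasProjectiveDimensionLT_one.2 h
    have : Module.Projective C Y := (IsProjective.iff_projective Y).2 h'
    have := T.projective_F (Y := Y)
    exact FinPD.of_projective
  | succ n ih =>
    intro Y _ _ h
    let q := Finsupp.linearCombination C (id : Y → Y)
    have hq : Function.Surjective q := linComb_surj Y
    have hex : Function.Exact (LinearMap.ker q).subtype q := LinearMap.exact_subtype_ker_map q
    have hK : PDLT C (LinearMap.ker q) (n + 1) := by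
      refine (sc_shortExact _ q hex (Submodule.injective_subtype _) hq).hasProjectiveDimensionLT_X₁
        (n + 1) ?_ h
      have h' : Projective (ModuleCat.of C (Y →₀ C)) := (IsProjective.iff_projective _).1 inferInstance
      exact hasProjectiveDimensionLT_of_ge (ModuleCat.of C (Y →₀ C)) 1 (n + 1) (by omega)
    have := T.projective_F_free Y
    exact FinPD.right (T.mapF _) (T.mapF q) (T.mapF_exact _ _ hex)
      (T.mapF_injective _ (Submodule.injective_subtype _)) (T.mapF_surjective _ hq) (ih _ hK)
      FinPD.of_projective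

theorem finPD_F (h : FinPD C Y) : FinPD T.A (T.F Y) := by
  obtain ⟨n, hn⟩ := h
  exact T.finPD_F_aux n Y (hn.mono (by omega))

/-- inflation of a projective `B`-module generated by its `e`-part is projective -/
theorem projective_Infl (X : Type) [AddCommGroup X] [Module B X] [Module.Projective B X]
    (hX : ∀ x : X, x ∈ Submodule.span B {x : X | T.e • x = x}) :
    Module.Projective T.A (T.Infl X) := by
  refine Module.Projective.of_lifting_property'' fun q hq => ?_
  let q' : T.ResA (T.Infl X →₀ T.A) →ₗ[B] X :=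
    { toFun := q
      map_add' := q.map_add
      map_smul' := fun b x => q.map_smul (inl b) x }
  obtain ⟨g, hg⟩ := Module.projective_lifting_property q' LinearMap.id hq
  have smul_zero' : ∀ a : T.A, a • (0 : T.Infl X →₀ T.A) = 0 := fun a => by simp
  have hN : ∀ (x : X) (n : T.N), (inr n : T.A) • (show T.Infl X →₀ T.A from g x) = 0 := by
    intro x
    refine Submodule.span_induction (p := fun x _ => ∀ n : T.N,
      (inr n : T.A) • (show T.Infl X →₀ T.A from g x) = 0) ?_ ?_ ?_ ?_ (hX x)
    · intro x hx n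
      have hx' : T.e • x = x := hx
      rw [← hx', map_smul]
      change (inr n : T.A) • (inl T.e : T.A) • (show T.Infl X →₀ T.A from g x) = 0
      rw [← mul_smul, inr_mul_inl]
      have : MulOpposite.op T.e • n = 0 := by
        funext s
        simp [N_op_smul_apply, T.πe, N_zero_apply]
      rw [this, inr_zero, zero_smul]
    · intro n
      rw [map_zero]
      exact smul_zero' (inr n : T.A)
    · intro x y _ _ hx hy n
      rw [map_add]
      exact (smul_add _ _ _).trans (by rw [hx n, hy n, add_zero])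
    · intro b x _ hx n
      rw [map_smul]
      change (inr n : T.A) • (inl b : T.A) • (show T.Infl X →₀ T.A from g x) = 0
      rw [← mul_smul, inr_mul_inl]
      exact hx _
  let g' : T.Infl X →ₗ[T.A] (T.Infl X →₀ T.A) :=
    { toFun := g
      map_add' := g.map_add
      map_smul' := fun a x => by
        have h1 : g (a.fst • (show X from x)) = a.fst • g x := g.map_smul _ _
        have ha : a = inl a.fst + inr a.snd := (inl_fst_add_inr_snd_eq a).symm
        refine h1.trans ?_
        change (inl a.fst : T.A) • (show T.Infl X →₀ T.A from g x) =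
          a • (show T.Infl X →₀ T.A from g x)
        conv_rhs => rw [ha, add_smul, hN, add_zero] }
  exact ⟨g', LinearMap.ext fun x => LinearMap.congr_fun hg x⟩

theorem inr_smul_Infl {X : Type} [AddCommGroup X] [Module B X] (n : T.N) (x : T.Infl X) :
    (inr n : T.A) • x = 0 := by
  rw [Infl_smul, fst_inr, zero_smul]
  rfl

/-- the pull-back along `N ⊗ Y → A ⊗ Y` vanishes on Ext with inflated coefficients -/
theorem incl_ext_zero (X : Type) [AddCommGroup X] [Module B X] (i : ℕ) :
    ∀ (Y : Type) [AddCommGroup Y] [Module C Y]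
      (α : Ext (ModuleCat.of T.A (T.F Y)) (ModuleCat.of T.A (T.Infl X)) i),
      (Ext.mk₀ (ModuleCat.ofHom (T.incl Y))).comp α (zero_add i) = 0 := by
  induction i with
  | zero =>
    intro Y _ _ α
    obtain ⟨f, rfl⟩ := (Ext.mk₀_bijective _ _).2 α
    rw [Ext.mk₀_comp_mk₀]
    have : ModuleCat.ofHom (T.incl Y) ≫ f = 0 := by
      ext z
      change f.hom (T.mkF 0 z) = 0
      rw [mkF_eq_sum, map_add, map_sum, mkF_zero, map_zero, zero_add]
      refine Finset.sum_eq_zero fun s _ => ?_
      rw [map_smul]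
      exact T.inr_smul_Infl (X := X) _ _
    rw [this, Ext.mk₀_zero]
  | succ i ih =>
    intro Y _ _ α
    let q : (Y →₀ C) →ₗ[C] Y := Finsupp.linearCombination C (id : Y → Y)
    have hq : Function.Surjective q := linComb_surj Y
    let j : LinearMap.ker q →ₗ[C] (Y →₀ C) := (LinearMap.ker q).subtype
    have hex : Function.Exact j q := LinearMap.exact_subtype_ker_map q
    have hi : Function.Injective j := Submodule.injective_subtype _
    have h₂ := sc_shortExact (T.mapF (Y := LinearMap.ker q) j) (T.mapF q)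
      (T.mapF_exact (Y := LinearMap.ker q) j q hex)
      (T.mapF_injective (Y := LinearMap.ker q) j hi) (T.mapF_surjective q hq)
    have e1 := T.mapE_exact (Y := LinearMap.ker q) j q hex
    have e2 := T.mapE_injective (Y := LinearMap.ker q) j hi
    have e3 := T.mapE_surjective q hq
    have h₁ := sc_shortExact (T.inflMap (T.mapE (Y := LinearMap.ker q) j)) (T.inflMap (T.mapE q))
      e1 e2 e3
    have hP : Projective (ModuleCat.of T.A (T.F (Y →₀ C))) :=
      (IsProjective.iff_projective _).1 (T.projective_F_free Y)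
    obtain ⟨β, hβ⟩ := Ext.contravariant_sequence_exact₃ h₂ (ModuleCat.of T.A (T.Infl X)) α
      (Ext.eq_zero_of_projective _) (add_comm 1 i)
    let φ : sc (T.inflMap (T.mapE (Y := LinearMap.ker q) j)) (T.inflMap (T.mapE q))
        e1 ⟶
        sc (T.mapF (Y := LinearMap.ker q) j) (T.mapF q)
          (T.mapF_exact (Y := LinearMap.ker q) j q hex) :=
      { τ₁ := ModuleCat.ofHom (T.incl _)
        τ₂ := ModuleCat.ofHom (T.incl _)
        τ₃ := ModuleCat.ofHom (T.incl _)
        comm₁₂ := by
          ext z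
          change T.mapF _ (T.mkF 0 z) = T.mkF 0 _
          rw [mapF_mkF, map_zero]
          rfl
        comm₂₃ := by
          ext z
          change T.mapF _ (T.mkF 0 z) = T.mkF 0 _
          rw [mapF_mkF, map_zero]
          rfl }
    have hnat := ShortComplex.ShortExact.extClass_naturality h₁ h₂ φ
    have hβ0 := ih _ β
    rw [← hβ, ← Ext.comp_assoc (a₁₂ := 1) _ _ _ (zero_add 1) (add_comm 1 i) (by omega)]
    change Ext.comp ((Ext.mk₀ φ.τ₃).comp h₂.extClass (zero_add 1)) β _ = 0
    rw [← hnat, Ext.comp_assoc (a₂₃ := i) _ _ _ (add_zero 1) (zero_add i) (by omega)]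
    change h₁.extClass.comp ((Ext.mk₀ (ModuleCat.ofHom (T.incl _))).comp β (zero_add i)) _ = 0
    rw [hβ0, Ext.comp_zero]

theorem ext_succ (X : Type) [AddCommGroup X] [Module B X] (i : ℕ) (Y : Type) [AddCommGroup Y]
    [Module C Y] (α : Ext (ModuleCat.of T.A (T.Infl (T.E Y))) (ModuleCat.of T.A (T.Infl X)) i)
    (hα : α ≠ 0) :
    ∃ α' : Ext (ModuleCat.of T.A (T.Infl (T.Res Y))) (ModuleCat.of T.A (T.Infl X)) (i + 1),
      α' ≠ 0 := by
  have h := sc_shortExact (T.incl Y) (T.proj Y) (T.incl_proj_exact Y) (T.incl_injective Y)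
    (T.proj_surjective Y)
  refine ⟨h.extClass.comp α (add_comm 1 i), fun h0 => hα ?_⟩
  obtain ⟨x₂, hx₂⟩ := Ext.contravariant_sequence_exact₁ h (ModuleCat.of T.A (T.Infl X)) α
    (add_comm 1 i) h0
  rw [← hx₂]
  exact T.incl_ext_zero X i Y x₂

theorem ext_retract {R : Type} [Ring R] {M M' X : Type} [AddCommGroup M] [Module R M]
    [AddCommGroup M'] [Module R M'] [AddCommGroup X] [Module R X] (i : M →ₗ[R] M') (r : M' →ₗ[R] M)
    (h : ∀ x, r (i x) = x) (n : ℕ) (α : Ext (ModuleCat.of R M) (ModuleCat.of R X) n) (hα : α ≠ 0) :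
    ∃ α' : Ext (ModuleCat.of R M') (ModuleCat.of R X) n, α' ≠ 0 := by
  refine ⟨(Ext.mk₀ (ModuleCat.ofHom r)).comp α (zero_add n), fun h0 => hα ?_⟩
  have h1 : ModuleCat.ofHom i ≫ ModuleCat.ofHom r = 𝟙 _ := by
    ext x
    exact h x
  rw [← Ext.mk₀_id_comp α, ← h1, ← Ext.mk₀_comp_mk₀, Ext.comp_assoc_of_second_deg_zero, h0,
    Ext.comp_zero]

/-- The abstract criterion for unbounded finite projective dimensions. -/
theorem unbounded (W : ℕ → Type) [∀ n, AddCommGroup (W n)] [∀ n, Module C (W n)]
    (hfin : ∀ n, Module.Finite C (W n)) (hC : ∀ n, FinPD C (W n))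
    (h0 : FinPD T.A (T.Infl (T.E (W 0))))
    (hS : ∀ n, FinPD T.A (T.Infl (T.Res (W n))) → FinPD T.A (T.Infl (T.E (W (n + 1)))))
    (i : ∀ n, T.Res (W n) →ₗ[B] T.E (W (n + 1))) (r : ∀ n, T.E (W (n + 1)) →ₗ[B] T.Res (W n))
    (hir : ∀ n x, r n (i n x) = x) (hne : Nontrivial (W 0)) (k : ℕ) :
    ∃ N : ModuleCat.{0} T.A, Module.Finite T.A N ∧ ¬ HasProjectiveDimensionLT N k ∧
      ∃ n : ℕ, HasProjectiveDimensionLT N n := by
  have step : ∀ n, FinPD T.A (T.Infl (T.E (W n))) → FinPD T.A (T.Infl (T.Res (W n))) := fun n h =>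
    FinPD.right (T.incl _) (T.proj _) (T.incl_proj_exact _) (T.incl_injective _)
      (T.proj_surjective _) h (T.finPD_F (hC n))
  have hfinPD : ∀ n, FinPD T.A (T.Infl (T.Res (W n))) := by
    intro n
    induction n with
    | zero => exact step 0 h0
    | succ n ih => exact step _ (hS n ih)
  have hext : ∀ n, ∃ α : Ext (ModuleCat.of T.A (T.Infl (T.Res (W n))))
      (ModuleCat.of T.A (T.Infl (T.Res (W 0)))) n, α ≠ 0 := by
    intro n
    induction n with
    | zero =>
      refine ⟨Ext.mk₀ (𝟙 _), fun h => ?_⟩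
      rw [Ext.mk₀_eq_zero_iff] at h
      obtain ⟨x, hx⟩ := exists_ne (0 : W 0)
      exact hx (congrArg (fun f : ModuleCat.of T.A (T.Infl (T.Res (W 0))) ⟶
        ModuleCat.of T.A (T.Infl (T.Res (W 0))) => f.hom x) h)
    | succ n ih =>
      obtain ⟨α, hα⟩ := ih
      obtain ⟨α', hα'⟩ := ext_retract (T.inflMap (i n)) (T.inflMap (r n)) (hir n) n α hα
      exact T.ext_succ _ n _ α' hα'
  refine ⟨ModuleCat.of T.A (T.Infl (T.Res (W k))), ?_, ?_, hfinPD k⟩
  · obtain ⟨s, hs⟩ := (hfin k).fg_top
    let s' : Finset (T.Infl (T.Res (W k))) := s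
    refine ⟨⟨s', ?_⟩⟩
    rw [eq_top_iff]
    rintro x -
    let x' : W k := x
    have hx : x' ∈ Submodule.span C (s : Set (W k)) := hs ▸ Submodule.mem_top
    refine Submodule.span_induction (p := fun (y : W k) _ => (show T.Infl (T.Res (W k)) from y) ∈
      Submodule.span T.A (s' : Set (T.Infl (T.Res (W k))))) ?_ ?_ ?_ ?_ hx
    · intro y hy
      exact Submodule.subset_span hy
    · exact Submodule.zero_mem _
    · intro y z _ _ hy hz
      exact Submodule.add_mem _ hy hz
    · intro c y _ hy
      obtain ⟨b, rfl⟩ := T.surj c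
      exact Submodule.smul_mem _ (inl b : T.A) hy
  · intro h
    obtain ⟨α, hα⟩ := hext k
    exact hα (α.eq_zero_of_hasProjectiveDimensionLT k le_rfl)

end Datum

end Crest.Agent.R178
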