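import Mathlib
import Crest.Agent.R178.PD

/-!
Algebras generated by a degree operator `D` with spectrum in `{0, …, m-1}` and finitely many
degree-raising elements: finite dimensional, of finite global dimension.
-/

set_option autoImplicit false
set_option linter.unusedSectionVars false

namespace Crest.Agent.R178

open Polynomial TensorProduct

/-- the polynomial `∏_{j<m} (X - j)` -/
noncomputable def nodePoly (m : ℕ) : ℂ[X] := ∏ j ∈ Finset.range m, (X - C (j : ℂ))

/-- the Lagrange basis polynomials at `0, …, m-1` -/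
noncomputable def lagPoly (m i : ℕ) : ℂ[X] := Lagrange.basis (Finset.range m) (fun j : ℕ => (j : ℂ)) i

theorem natCast_injOn (m : ℕ) : Set.InjOn (fun j : ℕ => (j : ℂ)) (Finset.range m : Set ℕ) :=
  fun _ _ _ _ h => Nat.cast_injective h

theorem lagPoly_eval (m i l : ℕ) (hi : i < m) (hl : l < m) :
    (lagPoly m i).eval (l : ℂ) = if i = l then 1 else 0 := by
  unfold lagPoly
  split_ifs with h
  · subst h
    exact Lagrange.eval_basis_self (natCast_injOn m) (Finset.mem_range.2 hi)
  · exact Lagrange.eval_basis_of_ne (v := fun j : ℕ => (j : ℂ)) h (Finset.mem_range.2 hl)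

theorem lagPoly_sum (m : ℕ) (hm : 0 < m) : ∑ i ∈ Finset.range m, lagPoly m i = 1 :=
  Lagrange.sum_basis (natCast_injOn m) ⟨0, Finset.mem_range.2 hm⟩

theorem lagPoly_mul (m i : ℕ) (hi : i < m) :
    ∃ w : ℂ, (X - C (i : ℂ)) * lagPoly m i = C w * nodePoly m := by
  refine ⟨∏ j ∈ (Finset.range m).erase i, ((i : ℂ) - (j : ℂ))⁻¹, ?_⟩
  unfold lagPoly nodePoly Lagrange.basis Lagrange.basisDivisor
  rw [Finset.prod_mul_distrib, ← Finset.mul_prod_erase _ _ (Finset.mem_range.2 hi), map_prod]
  ring

theorem nodePoly_eval_ne (m l : ℕ) (h : m ≤ l) : (nodePoly m).eval (l : ℂ) ≠ 0 := by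
  unfold nodePoly
  rw [eval_prod]
  refine Finset.prod_ne_zero_iff.2 fun j hj => ?_
  simp only [eval_sub, eval_X, eval_C, ne_eq, sub_eq_zero, Nat.cast_inj]
  have := Finset.mem_range.1 hj
  omega

theorem nodePoly_eval_zero (m l : ℕ) (h : l < m) : (nodePoly m).eval (l : ℂ) = 0 := by
  unfold nodePoly
  rw [eval_prod]
  exact Finset.prod_eq_zero (Finset.mem_range.2 h) (by simp)

section
variable {R : Type} [Ring R] [Algebra ℂ R]

theorem aeval_smul_eig {M : Type} [AddCommGroup M] [Module ℂ M] [Module R M] [IsScalarTower ℂ R M]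
    (D : R) (c : ℂ) (y : M) (h : D • y = c • y) (p : ℂ[X]) : aeval D p • y = p.eval c • y := by
  induction p using Polynomial.induction_on with
  | C a => simp
  | add p q hp hq => simp [add_smul, hp, hq]
  | monomial n a hp =>
    rw [pow_succ, ← mul_assoc, map_mul, aeval_X, mul_smul, h, smul_comm, hp,
      eval_mul (p := C a * X ^ n), eval_X, mul_comm _ c, mul_smul]

/-- the idempotent for the eigenvalue `i` of `D` -/
noncomputable def eps (m : ℕ) (D : R) (i : ℕ) : R := aeval D (lagPoly m i)

theorem eps_sum {m : ℕ} (hm : 0 < m) (D : R) : ∑ i ∈ Finset.range m, eps m D i = 1 := by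
  unfold eps
  rw [← map_sum, lagPoly_sum m hm, map_one]

theorem D_mul_eps {m : ℕ} {D : R} (hP : aeval D (nodePoly m) = 0) {i : ℕ} (hi : i < m) :
    D * eps m D i = (i : ℂ) • eps m D i := by
  obtain ⟨w, hw⟩ := lagPoly_mul m i hi
  have := congrArg (aeval D) hw
  rw [map_mul, map_mul, hP, mul_zero, map_sub, aeval_X, aeval_C, sub_mul, sub_eq_zero] at this
  rw [Algebra.smul_def]
  exact this

theorem eps_comm {m : ℕ} (D : R) (i : ℕ) : eps m D i * D = D * eps m D i := by
  unfold eps
  have : aeval D (lagPoly m i * X) = aeval D (X * lagPoly m i) := by rw [mul_comm]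
  simpa using this

variable {M : Type} [AddCommGroup M] [Module ℂ M] [Module R M] [IsScalarTower ℂ R M]

theorem eig_eq_zero {m : ℕ} {D : R} (hP : aeval D (nodePoly m) = 0) {l : ℕ} (hl : m ≤ l) {y : M}
    (h : D • y = (l : ℂ) • y) : y = 0 := by
  have := aeval_smul_eig D l y h (nodePoly m)
  rw [hP, zero_smul] at this
  exact (smul_eq_zero.1 this.symm).resolve_left (nodePoly_eval_ne m l hl)

theorem eps_smul_eig {m : ℕ} {D : R} (hP : aeval D (nodePoly m) = 0) {i l : ℕ} (hi : i < m) {y : M}
    (h : D • y = (l : ℂ) • y) : eps m D i • y = if i = l then y else 0 := by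
  by_cases hl : l < m
  · unfold eps
    rw [aeval_smul_eig D l y h, lagPoly_eval m i l hi hl]
    split_ifs <;> simp
  · rw [eig_eq_zero hP (not_lt.1 hl) h]
    simp

theorem D_smul_eps {m : ℕ} {D : R} (hP : aeval D (nodePoly m) = 0) {i : ℕ} (hi : i < m) (y : M) :
    D • eps m D i • y = (i : ℂ) • eps m D i • y := by
  rw [← mul_smul, D_mul_eps hP hi, smul_assoc]

theorem eq_sum_eps {m : ℕ} (hm : 0 < m) (D : R) (y : M) :
    y = ∑ i ∈ Finset.range m, eps m D i • y := by
  rw [← Finset.sum_smul, eps_sum hm, one_smul]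

end

/-- a directed algebra -/
structure Directed (R : Type) [Ring R] [Algebra ℂ R] (ι : Type) (m : ℕ) where
  D : R
  a : ι → R
  pos : 0 < m
  comm : ∀ i, D * a i = a i * D + a i
  node : aeval D (nodePoly m) = 0
  gen : Algebra.adjoin ℂ (insert D (Set.range a)) = ⊤

namespace Directed

variable {R : Type} [Ring R] [Algebra ℂ R] {ι : Type} {m : ℕ} (G : Directed R ι m)

theorem induction {p : R → Prop} (hD : p G.D) (ha : ∀ i, p (G.a i))
    (hc : ∀ c : ℂ, p (algebraMap ℂ R c)) (hadd : ∀ x y, p x → p y → p (x + y))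
    (hmul : ∀ x y, p x → p y → p (x * y)) (r : R) : p r := by
  have hr : r ∈ Algebra.adjoin ℂ (insert G.D (Set.range G.a)) := G.gen ▸ Algebra.mem_top
  induction hr using Algebra.adjoin_induction with
  | mem x hx =>
    rcases hx with rfl | ⟨i, rfl⟩
    · exact hD
    · exact ha i
  | algebraMap c => exact hc c
  | add x y _ _ hx hy => exact hadd x y hx hy
  | mul x y _ _ hx hy => exact hmul x y hx hy

/-- the idempotents -/
noncomputable abbrev ε (i : ℕ) : R := eps m G.D i

section
variable {M : Type} [AddCommGroup M] [Module ℂ M] [Module R M] [IsScalarTower ℂ R M]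

theorem closed (U : Submodule ℂ M) (hD : ∀ y ∈ U, G.D • y ∈ U) (ha : ∀ i, ∀ y ∈ U, G.a i • y ∈ U)
    (r : R) : ∀ y ∈ U, r • y ∈ U := by
  induction r using G.induction with
  | hD => exact hD
  | ha i => exact ha i
  | hc c => intro y hy; rw [algebraMap_smul]; exact U.smul_mem c hy
  | hadd x z hx hz => intro y hy; rw [add_smul]; exact U.add_mem (hx y hy) (hz y hy)
  | hmul x z hx hz => intro y hy; rw [mul_smul]; exact hx _ (hz y hy)

/-- a `ℂ`-linear map commuting with the generators is `R`-linear -/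
def mkLinear {M' : Type} [AddCommGroup M'] [Module ℂ M'] [Module R M'] [IsScalarTower ℂ R M']
    (f : M →ₗ[ℂ] M') (hD : ∀ y, f (G.D • y) = G.D • f y) (ha : ∀ i y, f (G.a i • y) = G.a i • f y) :
    M →ₗ[R] M' where
  toFun := f
  map_add' := f.map_add
  map_smul' r := by
    induction r using G.induction with
    | hD => exact hD
    | ha i => exact ha i
    | hc c => intro y; simp
    | hadd x z hx hz =>
      intro y
      have h1 := hx y
      have h2 := hz y
      simp only [RingHom.id_apply] at h1 h2 ⊢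
      rw [add_smul, map_add, h1, h2, add_smul]
    | hmul x z hx hz =>
      intro y
      have h1 := hx (z • y)
      have h2 := hz y
      simp only [RingHom.id_apply] at h1 h2 ⊢
      rw [mul_smul, h1, h2, mul_smul]

theorem mkLinear_apply {M' : Type} [AddCommGroup M'] [Module ℂ M'] [Module R M']
    [IsScalarTower ℂ R M'] (f : M →ₗ[ℂ] M') (hD : ∀ y, f (G.D • y) = G.D • f y)
    (ha : ∀ i y, f (G.a i • y) = G.a i • f y) (y : M) : G.mkLinear f hD ha y = f y := rfl

theorem a_smul_eig (i : ι) {l : ℕ} {y : M} (h : G.D • y = (l : ℂ) • y) :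
    G.D • G.a i • y = ((l + 1 : ℕ) : ℂ) • G.a i • y := by
  rw [← mul_smul, G.comm, add_smul, mul_smul, h, smul_comm, Nat.cast_succ, add_smul, one_smul]

variable (M) in
/-- the elements of degree at least `k` -/
def Ge (k : ℕ) : Submodule ℂ M where
  carrier := {y | ∀ i, i < k → i < m → G.ε i • y = 0}
  add_mem' hx hy i h1 h2 := by rw [smul_add, hx i h1 h2, hy i h1 h2, add_zero]
  zero_mem' i _ _ := smul_zero _
  smul_mem' c y hy i h1 h2 := by rw [smul_comm, hy i h1 h2, smul_zero]

theorem mem_Ge {k : ℕ} {y : M} : y ∈ G.Ge M k ↔ ∀ i, i < k → i < m → G.ε i • y = 0 := Iff.rfl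

theorem Ge_mono {k l : ℕ} (h : k ≤ l) {y : M} (hy : y ∈ G.Ge M l) : y ∈ G.Ge M k :=
  fun i h1 h2 => hy i (by omega) h2

theorem D_mem_Ge {k : ℕ} {y : M} (hy : y ∈ G.Ge M k) : G.D • y ∈ G.Ge M k := fun i h1 h2 => by
  rw [← mul_smul, eps_comm, mul_smul, hy i h1 h2, smul_zero]

theorem a_mem_Ge {k : ℕ} (j : ι) {y : M} (hy : y ∈ G.Ge M k) : G.a j • y ∈ G.Ge M (k + 1) := by
  intro i h1 h2
  rw [eq_sum_eps G.pos G.D y, Finset.smul_sum, Finset.smul_sum]
  refine Finset.sum_eq_zero fun l hl => ?_
  have hl' := Finset.mem_range.1 hl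
  rw [eps_smul_eig G.node h2 (G.a_smul_eig j (D_smul_eps G.node hl' y))]
  split_ifs with h
  · have := hy l (by omega) hl'
    rw [show eps m G.D l • y = 0 from this, smul_zero]
  · rfl

theorem smul_mem_Ge {k : ℕ} (r : R) {y : M} (hy : y ∈ G.Ge M k) : r • y ∈ G.Ge M k :=
  G.closed (G.Ge M k) (fun _ h => G.D_mem_Ge h)
    (fun j _ h => G.Ge_mono (Nat.le_succ k) (G.a_mem_Ge j h)) r y hy

theorem eig_mem_Ge {l : ℕ} {y : M} (h : G.D • y = (l : ℂ) • y) : y ∈ G.Ge M l := fun i h1 h2 => by
  rw [eps_smul_eig G.node h2 h, if_neg (by omega)]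

theorem eq_zero_of_mem_Ge {k : ℕ} (hk : m ≤ k) {y : M} (hy : y ∈ G.Ge M k) : y = 0 := by
  rw [eq_sum_eps G.pos G.D y]
  exact Finset.sum_eq_zero fun l hl =>
    hy l (lt_of_lt_of_le (Finset.mem_range.1 hl) hk) (Finset.mem_range.1 hl)

theorem eig_span {l : ℕ} {y : M} (h : G.D • y = (l : ℂ) • y) (r : R) :
    ∃ χ : ℂ, r • y - χ • y ∈ G.Ge M (l + 1) := by
  have key := G.closed (Submodule.span ℂ {y} ⊔ G.Ge M (l + 1)) ?_ ?_ r y
    (Submodule.mem_sup_left (Submodule.mem_span_singleton_self y))
  · obtain ⟨u, hu, t, ht, hut⟩ := Submodule.mem_sup.1 key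
    obtain ⟨χ, rfl⟩ := Submodule.mem_span_singleton.1 hu
    exact ⟨χ, by rw [← hut, add_sub_cancel_left]; exact ht⟩
  · intro z hz
    obtain ⟨u, hu, t, ht, rfl⟩ := Submodule.mem_sup.1 hz
    obtain ⟨χ, rfl⟩ := Submodule.mem_span_singleton.1 hu
    rw [smul_add, smul_comm, h]
    exact Submodule.add_mem_sup (Submodule.smul_mem _ _ (Submodule.smul_mem _ _
      (Submodule.mem_span_singleton_self y))) (G.D_mem_Ge ht)
  · intro j z hz
    obtain ⟨u, hu, t, ht, rfl⟩ := Submodule.mem_sup.1 hz
    obtain ⟨χ, rfl⟩ := Submodule.mem_span_singleton.1 hu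
    rw [smul_add, smul_comm]
    exact Submodule.mem_sup_right (Submodule.add_mem _
      (Submodule.smul_mem _ _ (G.a_mem_Ge j (G.eig_mem_Ge h)))
      (G.Ge_mono (Nat.le_succ _) (G.a_mem_Ge j ht)))

end

theorem eps_eig {l : ℕ} (hl : l < m) : G.D • G.ε l = (l : ℂ) • G.ε l := D_mul_eps G.node hl

theorem eps_mul_self {l : ℕ} (hl : l < m) : G.ε l * G.ε l = G.ε l := by
  have := eps_smul_eig G.node hl (G.eps_eig hl)
  rwa [if_pos rfl] at this

theorem eps_zero_mul (r : R) : G.ε 0 * r * G.ε 0 = G.ε 0 * r := by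
  conv_rhs => rw [← mul_one r, ← eps_sum G.pos G.D, Finset.mul_sum, Finset.mul_sum]
  rw [Finset.sum_eq_single 0, mul_assoc]
  · intro l hl hl0
    have h1 : r • G.ε l ∈ G.Ge R l := G.smul_mem_Ge r (G.eig_mem_Ge (G.eps_eig (Finset.mem_range.1 hl)))
    exact h1 0 (by omega) G.pos
  · intro h
    exact absurd (Finset.mem_range.2 G.pos) h

theorem fg_span_eig [Finite ι] (d : ℕ) : ∀ (l : ℕ) (y : R), m ≤ l + d → G.D • y = (l : ℂ) • y →
    ((Submodule.span R {y}).restrictScalars ℂ).FG := by
  induction d with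
  | zero =>
    intro l y hl h
    rw [eig_eq_zero G.node hl h]
    simp [Submodule.fg_bot]
  | succ d ih =>
    intro l y hl h
    let V : Submodule ℂ R := Submodule.span ℂ {y} ⊔
      ⨆ i, (Submodule.span R {G.a i • y}).restrictScalars ℂ
    have hV : V.FG := (Submodule.fg_span_singleton y).sup
      (Submodule.fg_iSup _ fun i => ih (l + 1) _ (by omega) (G.a_smul_eig i h))
    have hsub : ∀ r : R, ∀ t ∈ (⨆ i, (Submodule.span R {G.a i • y}).restrictScalars ℂ),
        r • t ∈ (⨆ i, (Submodule.span R {G.a i • y}).restrictScalars ℂ) := by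
      intro r t ht
      induction ht using Submodule.iSup_induction' with
      | mem i t ht => exact Submodule.mem_iSup_of_mem i (Submodule.smul_mem _ r ht)
      | zero => rw [smul_zero]; exact Submodule.zero_mem _
      | add t t' _ _ h1 h2 => rw [smul_add]; exact Submodule.add_mem _ h1 h2
    convert hV using 1
    apply le_antisymm
    · intro z hz
      obtain ⟨r, rfl⟩ := Submodule.mem_span_singleton.1 hz
      refine G.closed V ?_ ?_ r y (Submodule.mem_sup_left (Submodule.mem_span_singleton_self y))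
      · intro z hz
        obtain ⟨u, hu, t, ht, rfl⟩ := Submodule.mem_sup.1 hz
        obtain ⟨χ, rfl⟩ := Submodule.mem_span_singleton.1 hu
        rw [smul_add, smul_comm, h]
        exact Submodule.add_mem_sup (Submodule.smul_mem _ _ (Submodule.smul_mem _ _
          (Submodule.mem_span_singleton_self y))) (hsub _ t ht)
      · intro j z hz
        obtain ⟨u, hu, t, ht, rfl⟩ := Submodule.mem_sup.1 hz
        obtain ⟨χ, rfl⟩ := Submodule.mem_span_singleton.1 hu
        rw [smul_add, smul_comm]
        exact Submodule.mem_sup_right (Submodule.add_mem _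
          (Submodule.smul_mem _ _ (Submodule.mem_iSup_of_mem j
            (Submodule.mem_span_singleton_self (G.a j • y)))) (hsub _ t ht))
    · refine sup_le ?_ (iSup_le fun i => ?_)
      · rw [Submodule.span_singleton_le_iff_mem]
        exact Submodule.mem_span_singleton_self y
      · intro z hz
        obtain ⟨r, rfl⟩ := Submodule.mem_span_singleton.1 hz
        exact Submodule.smul_mem _ r (Submodule.smul_mem _ _ (Submodule.mem_span_singleton_self y))

include G in
theorem finiteDimensional [Finite ι] : FiniteDimensional ℂ R := by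
  have h : (⨆ l : Fin m, (Submodule.span R {G.ε l}).restrictScalars ℂ).FG :=
    Submodule.fg_iSup _ fun l => G.fg_span_eig m l _ (by omega) (G.eps_eig l.2)
  suffices h' : (⨆ l : Fin m, (Submodule.span R {G.ε l}).restrictScalars ℂ) = ⊤ from ⟨h' ▸ h⟩
  rw [eq_top_iff]
  rintro r -
  rw [← mul_one r, ← eps_sum G.pos G.D, Finset.mul_sum]
  refine Submodule.sum_mem _ fun l hl => ?_
  refine Submodule.mem_iSup_of_mem (⟨l, Finset.mem_range.1 hl⟩ : Fin m) ?_
  exact Submodule.smul_mem _ r (Submodule.mem_span_singleton_self _)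

theorem projective_span {l : ℕ} (hl : l < m) :
    Module.Projective R (Submodule.span R {G.ε l}) := by
  refine Module.Projective.of_split (Submodule.span R {G.ε l}).subtype
    ((LinearMap.toSpanSingleton R R (G.ε l)).codRestrict _ fun x =>
      Submodule.smul_mem _ x (Submodule.mem_span_singleton_self _)) ?_
  ext ⟨x, hx⟩
  obtain ⟨r, rfl⟩ := Submodule.mem_span_singleton.1 hx
  simp [mul_assoc, G.eps_mul_self hl]

theorem finPD_aux (d : ℕ) : ∀ (l : ℕ) (Y : Type) [AddCommGroup Y] [Module ℂ Y] [Module R Y]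
    [IsScalarTower ℂ R Y], m ≤ l + d → (∀ y : Y, y ∈ G.Ge Y l) → FinPD R Y := by
  induction d with
  | zero =>
    intro l Y _ _ _ _ hl h
    have : Subsingleton Y := ⟨fun x y => by
      rw [G.eq_zero_of_mem_Ge hl (h x), G.eq_zero_of_mem_Ge hl (h y)]⟩
    exact FinPD.of_subsingleton
  | succ d ih =>
    intro l Y _ _ _ _ hl h
    by_cases hlm : m ≤ l + d
    · exact ih l Y hlm h
    have hl' : l < m := by omega
    let P : Submodule R R := Submodule.span R {G.ε l}
    let V : Submodule ℂ Y :=
      { carrier := {y | G.D • y = (l : ℂ) • y}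
        add_mem' := fun {x y} hx hy => by
          change G.D • (x + y) = (l : ℂ) • (x + y)
          rw [smul_add, smul_add, hx, hy]
        zero_mem' := by simp
        smul_mem' := fun c y hy => by
          change G.D • c • y = (l : ℂ) • c • y
          rw [smul_comm, hy, smul_comm] }
    let β : P →ₗ[R] V →ₗ[ℂ] Y :=
      { toFun := fun p =>
          { toFun := fun v => (p : R) • (v : Y)
            map_add' := fun v w => by simp
            map_smul' := fun c v => smul_comm _ _ _ }
        map_add' := fun p q => by ext v; simp [add_smul]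
        map_smul' := fun r p => by ext v; simp [mul_smul] }
    let μ : P ⊗[ℂ] V →ₗ[R] Y := TensorProduct.AlgebraTensorModule.lift β
    have hμ : ∀ (p : P) (v : V), μ (p ⊗ₜ v) = (p : R) • (v : Y) := fun p v => rfl
    let e : P := ⟨G.ε l, Submodule.mem_span_singleton_self _⟩
    let ρ : Y →ₗ[ℂ] V :=
      { toFun := fun y => ⟨G.ε l • y, D_smul_eps G.node hl' y⟩
        map_add' := fun x y => Subtype.ext (smul_add _ _ _)
        map_smul' := fun c y => Subtype.ext (smul_comm _ _ _) }
    have hP := G.projective_span hl'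
    have h1 : ∀ t : P ⊗[ℂ] V, ∀ i, i < l → G.ε i • t = 0 := by
      intro t i hi
      induction t with
      | zero => simp
      | add x y hx hy => rw [smul_add, hx, hy, add_zero]
      | tmul p v =>
        obtain ⟨p, hp⟩ := p
        obtain ⟨r, rfl⟩ := Submodule.mem_span_singleton.1 hp
        rw [TensorProduct.smul_tmul']
        have : G.ε i • (⟨r • G.ε l, hp⟩ : P) = 0 :=
          Subtype.ext (G.smul_mem_Ge r (G.eig_mem_Ge (G.eps_eig hl')) i hi (by omega))
        rw [this, TensorProduct.zero_tmul]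
    have h2 : ∀ t : P ⊗[ℂ] V, G.ε l • t = e ⊗ₜ ρ (μ t) := by
      intro t
      induction t with
      | zero => simp
      | add x y hx hy => rw [smul_add, hx, hy, map_add, map_add, TensorProduct.tmul_add]
      | tmul p v =>
        obtain ⟨p, hp⟩ := p
        obtain ⟨r, rfl⟩ := Submodule.mem_span_singleton.1 hp
        obtain ⟨χ, hχ⟩ := G.eig_span (G.eps_eig hl') r
        have h3 : G.ε l * (r * G.ε l) = χ • G.ε l := by
          have := hχ l (Nat.lt_succ_self l) hl'
          rw [smul_sub, sub_eq_zero, smul_comm (G.ε l) χ] at this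
          simpa [G.eps_mul_self hl'] using this
        have h4 : G.ε l • (⟨r • G.ε l, hp⟩ : P) = χ • e := Subtype.ext h3
        have h5 : G.ε l • (v : Y) = v := by
          have := eps_smul_eig G.node hl' (show G.D • (v : Y) = (l : ℂ) • (v : Y) from v.2)
          rwa [if_pos rfl] at this
        have h6 : ρ (μ ((⟨r • G.ε l, hp⟩ : P) ⊗ₜ v)) = χ • v := by
          apply Subtype.ext
          change G.ε l • (r * G.ε l) • (v : Y) = χ • (v : Y)
          rw [← mul_smul, h3, smul_assoc, h5]
        rw [TensorProduct.smul_tmul', h4, h6, TensorProduct.smul_tmul]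
    refine FinPD.of_ker_coker μ FinPD.of_projective (ih (l + 1) _ (by omega) ?_)
      (ih (l + 1) _ (by omega) ?_)
    · rintro ⟨t, ht⟩ i hi him
      apply Subtype.ext
      change G.ε i • t = 0
      by_cases hil : i = l
      · rw [hil, h2, show μ t = 0 from ht, map_zero, TensorProduct.tmul_zero]
      · exact h1 t i (by omega)
    · intro y i hi him
      obtain ⟨y, rfl⟩ := Submodule.mkQ_surjective _ y
      rw [← map_smul, Submodule.mkQ_apply, Submodule.Quotient.mk_eq_zero]
      by_cases hil : i = l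
      · refine ⟨e ⊗ₜ ρ y, ?_⟩
        rw [hμ, hil]
        change G.ε l • G.ε l • y = G.ε l • y
        rw [← mul_smul, G.eps_mul_self hl']
      · rw [h y i (by omega) him]
        exact Submodule.zero_mem _

include G in
theorem finPD (Y : Type) [AddCommGroup Y] [Module ℂ Y] [Module R Y] [IsScalarTower ℂ R Y] :
    FinPD R Y :=
  G.finPD_aux m 0 Y (by omega) fun _ _ h => absurd h (Nat.not_lt_zero _)

end Directed

end Crest.Agent.R178
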