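import Mathlib
import Crest.Agent.R178.Directed

/-!
Ring-level identities: the relations of the Chevalley–Eilenberg algebra of `gl₂`.
-/

set_option autoImplicit false
set_option linter.unusedSectionVars false
set_option linter.unusedSimpArgs false
set_option linter.unnecessarySeqFocus false

namespace Crest.Agent.R178

open Polynomial

theorem assoc_of {R : Type} [Ring R] {a b c : R} (h : a * b = c) (y : R) : a * (b * y) = c * y := by
  rw [← mul_assoc, h]

/-- The relations between the four odd generators `x`, the differential `d` and the degree `D`. -/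
structure IsCE {R : Type} [Ring R] (x : Fin 4 → R) (d D : R) : Prop where
  anti : ∀ i j, x i * x j = -(x j * x i)
  sq : ∀ i, x i * x i = 0
  dd : d * d = 0
  d0 : d * x 0 = -(x 0 * d) - x 1 * x 2
  d1 : d * x 1 = -(x 1 * d) - x 0 * x 1 - x 1 * x 3
  d2 : d * x 2 = -(x 2 * d) + x 0 * x 2 + x 2 * x 3
  d3 : d * x 3 = -(x 3 * d) + x 1 * x 2
  Dx : ∀ i, D * x i = x i * D + x i
  Dd : D * d = d * D + d

namespace IsCE

variable {R : Type} [Ring R] {x : Fin 4 → R} {d D : R}

theorem map {R' F : Type} [Ring R'] [FunLike F R R'] [RingHomClass F R R'] (h : IsCE x d D)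
    (f : F) : IsCE (fun k => f (x k)) (f d) (f D) where
  anti i j := by simpa using congrArg f (h.anti i j)
  sq i := by simpa using congrArg f (h.sq i)
  dd := by simpa using congrArg f h.dd
  d0 := by simpa using congrArg f h.d0
  d1 := by simpa using congrArg f h.d1
  d2 := by simpa using congrArg f h.d2
  d3 := by simpa using congrArg f h.d3
  Dx i := by simpa using congrArg f (h.Dx i)
  Dd := by simpa using congrArg f h.Dd

theorem neg (h : IsCE x d D) : IsCE (fun k => -x k) (-d) (D - 1) where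
  anti i j := by simpa using h.anti i j
  sq i := by simpa using h.sq i
  dd := by simpa using h.dd
  d0 := by simpa using h.d0
  d1 := by simpa using h.d1
  d2 := by simpa using h.d2
  d3 := by simpa using h.d3
  Dx i := by simp only [sub_mul, mul_sub, mul_neg, neg_mul, h.Dx i]; noncomm_ring
  Dd := by simp only [sub_mul, mul_sub, mul_neg, neg_mul, h.Dd]; noncomm_ring

theorem cone (h : IsCE x d D) (δ : Fin 4 → R) (φ : R)
    (hδx : ∀ i j, δ i * x j = x j * δ i) (hδD : ∀ i, D * δ i = δ i * D)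
    (hφx : ∀ i, φ * x i = x i * φ) (hφd : φ * d = d * φ) (hφD : D * φ = φ * D)
    (h0 : d * δ 0 = δ 0 * d - x 1 * δ 2 + x 2 * δ 1)
    (h1 : d * δ 1 = δ 1 * d - x 0 * δ 1 + x 1 * δ 0 - x 1 * δ 3 + x 3 * δ 1)
    (h2 : d * δ 2 = δ 2 * d + x 0 * δ 2 - x 2 * δ 0 + x 2 * δ 3 - x 3 * δ 2)
    (h3 : d * δ 3 = δ 3 * d + x 1 * δ 2 - x 2 * δ 1) :
    IsCE (fun k => !![x k, δ k; 0, -x k]) !![d, φ; 0, -d] !![D, 0; 0, D - 1] where
  anti i j := by
    ext a b
    fin_cases a <;> fin_cases b <;> simp [hδx, h.anti i j]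
  sq i := by
    ext a b
    fin_cases a <;> fin_cases b <;> simp [hδx, h.sq i]
  dd := by
    ext a b
    fin_cases a <;> fin_cases b <;> simp [hφd, h.dd]
  d0 := by
    ext a b
    fin_cases a <;> fin_cases b <;> simp [hφx, hδx, h.d0, h0] <;> noncomm_ring
  d1 := by
    ext a b
    fin_cases a <;> fin_cases b <;> simp [hφx, hδx, h.d1, h1] <;> noncomm_ring
  d2 := by
    ext a b
    fin_cases a <;> fin_cases b <;> simp [hφx, hδx, h.d2, h2] <;> noncomm_ring
  d3 := by
    ext a b
    fin_cases a <;> fin_cases b <;> simp [hφx, hδx, h.d3, h3] <;> noncomm_ring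
  Dx i := by
    ext a b
    fin_cases a <;> fin_cases b <;> simp [sub_mul, mul_sub, hδD, h.Dx] <;> noncomm_ring
  Dd := by
    ext a b
    fin_cases a <;> fin_cases b <;> simp [sub_mul, mul_sub, hφD, h.Dd] <;> noncomm_ring

end IsCE

section tw
variable {R : Type} [Ring R]

/-- diagonal matrix -/
def dg (r : R) : Matrix (Fin 2) (Fin 2) R := !![r, 0; 0, r]

/-- the differential twisted by the dual of the standard representation -/
def twd (x : Fin 4 → R) (d : R) : Matrix (Fin 2) (Fin 2) R := !![d - x 0, -x 2; -x 1, d - x 3]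

/-- the constant matrices of the contraction derivation -/
def dl (R : Type) [Ring R] : Fin 4 → Matrix (Fin 2) (Fin 2) R :=
  ![!![0, 0; 0, -1], !![0, 1; 0, 0], !![0, 0; 1, 0], !![-1, 0; 0, 0]]

variable {x : Fin 4 → R} {d D : R}

theorem IsCE.tw (h : IsCE x d D) : IsCE (fun k => dg (x k)) (twd x d) (dg D) := by
  have a10 := h.anti 1 0
  have a20 := h.anti 2 0
  have a30 := h.anti 3 0
  have a21 := h.anti 2 1
  have a31 := h.anti 3 1
  have a32 := h.anti 3 2
  refine ⟨fun i j => ?_, fun i => ?_, ?_, ?_, ?_, ?_, ?_, fun i => ?_, ?_⟩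
  · ext a b
    fin_cases a <;> fin_cases b <;> simp [dg, h.anti i j]
  · ext a b
    fin_cases a <;> fin_cases b <;> simp [dg, h.sq i]
  · ext a b
    fin_cases a <;> fin_cases b <;>
      simp [twd, sub_mul, mul_sub, h.dd, h.d0, h.d1, h.d2, h.d3, h.sq, a10, a20, a30, a21, a31,
        a32] <;> abel
  · ext a b
    fin_cases a <;> fin_cases b <;>
      simp [dg, twd, sub_mul, mul_sub, h.d0, h.sq, a10, a20, a30, a21, a31, a32] <;> noncomm_ring
  · ext a b
    fin_cases a <;> fin_cases b <;>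
      simp [dg, twd, sub_mul, mul_sub, h.d1, h.sq, a10, a20, a30, a21, a31, a32] <;> noncomm_ring
  · ext a b
    fin_cases a <;> fin_cases b <;>
      simp [dg, twd, sub_mul, mul_sub, h.d2, h.sq, a10, a20, a30, a21, a31, a32] <;> noncomm_ring
  · ext a b
    fin_cases a <;> fin_cases b <;>
      simp [dg, twd, sub_mul, mul_sub, h.d3, h.sq, a10, a20, a30, a21, a31, a32] <;> noncomm_ring
  · ext a b
    fin_cases a <;> fin_cases b <;> simp [dg, h.Dx]
  · ext a b
    fin_cases a <;> fin_cases b <;>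
      simp [dg, twd, sub_mul, mul_sub, h.Dx, h.Dd] <;> abel

theorem IsCE.theta (h : IsCE x d D) :
    IsCE (fun k => !![dg (x k), dl R k; 0, -dg (x k)]) !![twd x d, 0; 0, -twd x d]
      !![dg D, 0; 0, dg D - 1] := by
  refine h.tw.cone (dl R) 0 (fun i j => ?_) (fun i => ?_) (by simp) (by simp) (by simp) ?_ ?_ ?_ ?_
  · ext a b
    fin_cases i <;> fin_cases a <;> fin_cases b <;> simp [dg, dl]
  · ext a b
    fin_cases i <;> fin_cases a <;> fin_cases b <;> simp [dg, dl]
  all_goals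
    ext a b
    fin_cases a <;> fin_cases b <;> simp [dg, dl, twd] <;> abel

end tw

/-- fermionic creation/annihilation operators together with a commuting `gl₂`-action -/
structure IsFock {R : Type} [Ring R] (x ι e : Fin 4 → R) : Prop where
  anti : ∀ i j, x i * x j = -(x j * x i)
  sq : ∀ i, x i * x i = 0
  ιanti : ∀ i j, ι i * ι j = -(ι j * ι i)
  ιsq : ∀ i, ι i * ι i = 0
  car : ∀ i j, ι i * x j = (if i = j then 1 else 0) - x j * ι i
  ex : ∀ i j, e i * x j = x j * e i
  eι : ∀ i j, e i * ι j = ι j * e i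
  e10 : e 1 * e 0 = e 0 * e 1 - e 1
  e20 : e 2 * e 0 = e 0 * e 2 + e 2
  e30 : e 3 * e 0 = e 0 * e 3
  e21 : e 2 * e 1 = e 1 * e 2 - e 0 + e 3
  e31 : e 3 * e 1 = e 1 * e 3 - e 1
  e32 : e 3 * e 2 = e 2 * e 3 + e 2

section fock
variable {R : Type} [Ring R]

/-- the Chevalley–Eilenberg differential -/
def dF (x ι e : Fin 4 → R) : R :=
  x 0 * e 0 + x 1 * e 1 + x 2 * e 2 + x 3 * e 3 - x 1 * (x 2 * ι 0) - x 0 * (x 1 * ι 1)
    - x 1 * (x 3 * ι 1) + x 0 * (x 2 * ι 2) + x 2 * (x 3 * ι 2) + x 1 * (x 2 * ι 3)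

/-- the number operator -/
def nF (x ι : Fin 4 → R) : R := x 0 * ι 0 + x 1 * ι 1 + x 2 * ι 2 + x 3 * ι 3

/-- the contraction matrix -/
def iM (ι : Fin 4 → R) : Matrix (Fin 2) (Fin 2) R := !![ι 3, -ι 1; -ι 2, ι 0]

/-- the invariant endomorphism -/
def phiM (e : Fin 4 → R) : Matrix (Fin 2) (Fin 2) R := !![e 3 + 1, -e 1; -e 2, e 0 + 1]

variable {x ι e : Fin 4 → R}

/-- normal ordering -/
macro "fock_norm" h:term : tactic => `(tactic| (
  simp only [mul_add, add_mul, mul_sub, sub_mul, mul_neg, neg_mul, mul_assoc, mul_one, one_mul,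
    mul_zero, zero_mul, neg_neg, neg_zero, add_zero, zero_add, sub_zero,
    IsFock.anti $h 1 0, IsFock.anti $h 2 0, IsFock.anti $h 3 0, IsFock.anti $h 2 1,
    IsFock.anti $h 3 1, IsFock.anti $h 3 2,
    assoc_of (IsFock.anti $h 1 0), assoc_of (IsFock.anti $h 2 0), assoc_of (IsFock.anti $h 3 0),
    assoc_of (IsFock.anti $h 2 1), assoc_of (IsFock.anti $h 3 1), assoc_of (IsFock.anti $h 3 2),
    IsFock.sq $h, assoc_of (IsFock.sq $h _),
    IsFock.ιanti $h 1 0, IsFock.ιanti $h 2 0, IsFock.ιanti $h 3 0, IsFock.ιanti $h 2 1,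
    IsFock.ιanti $h 3 1, IsFock.ιanti $h 3 2,
    assoc_of (IsFock.ιanti $h 1 0), assoc_of (IsFock.ιanti $h 2 0), assoc_of (IsFock.ιanti $h 3 0),
    assoc_of (IsFock.ιanti $h 2 1), assoc_of (IsFock.ιanti $h 3 1), assoc_of (IsFock.ιanti $h 3 2),
    IsFock.ιsq $h, assoc_of (IsFock.ιsq $h _),
    IsFock.car $h, assoc_of (IsFock.car $h _ _),
    IsFock.ex $h, assoc_of (IsFock.ex $h _ _), IsFock.eι $h, assoc_of (IsFock.eι $h _ _),
    IsFock.e10 $h, IsFock.e20 $h, IsFock.e30 $h, IsFock.e21 $h, IsFock.e31 $h, IsFock.e32 $h,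
    assoc_of (IsFock.e10 $h), assoc_of (IsFock.e20 $h), assoc_of (IsFock.e30 $h),
    assoc_of (IsFock.e21 $h), assoc_of (IsFock.e31 $h), assoc_of (IsFock.e32 $h),
    Fin.isValue, Fin.reduceEq, if_true, if_false, reduceIte]
  try abel))

theorem IsFock.dF_sq (h : IsFock x ι e) : dF x ι e * dF x ι e = 0 := by
  unfold dF
  fock_norm h

theorem IsFock.isCE (h : IsFock x ι e) : IsCE x (dF x ι e) (nF x ι + 1) := by
  refine ⟨h.anti, h.sq, h.dF_sq, ?_, ?_, ?_, ?_, fun i => ?_, ?_⟩
  · unfold dF; fock_norm h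
  · unfold dF; fock_norm h
  · unfold dF; fock_norm h
  · unfold dF; fock_norm h
  · unfold nF
    fin_cases i
    · change _ * x 0 = x 0 * _ + x 0; fock_norm h
    · change _ * x 1 = x 1 * _ + x 1; fock_norm h
    · change _ * x 2 = x 2 * _ + x 2; fock_norm h
    · change _ * x 3 = x 3 * _ + x 3; fock_norm h
  · unfold dF nF; fock_norm h

theorem IsFock.iM_x (h : IsFock x ι e) (k : Fin 4) :
    iM ι * dg (x k) + dg (x k) * iM ι = -dl R k := by
  ext a b
  fin_cases k <;> fin_cases a <;> fin_cases b <;> simp [iM, dg, dl, h.car] <;> abel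

theorem IsFock.iM_d (h : IsFock x ι e) :
    iM ι * twd x (dF x ι e) + twd x (dF x ι e) * iM ι = phiM e := by
  ext a b
  fin_cases a <;> fin_cases b <;> simp [iM, twd, phiM, dF] <;> fock_norm h

theorem IsFock.iM_D (h : IsFock x ι e) :
    dg (nF x ι + 1) * iM ι = iM ι * dg (nF x ι + 1) - iM ι := by
  ext a b
  fin_cases a <;> fin_cases b <;> simp [iM, dg, nF] <;> fock_norm h

theorem IsFock.phiM_x (h : IsFock x ι e) (k : Fin 4) :
    phiM e * dg (x k) = dg (x k) * phiM e := by
  ext a b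
  fin_cases a <;> fin_cases b <;> simp [phiM, dg, h.ex, add_mul, mul_add]

theorem IsFock.phiM_d (h : IsFock x ι e) :
    phiM e * twd x (dF x ι e) = twd x (dF x ι e) * phiM e := by
  rw [← h.iM_d, add_mul, mul_add, mul_assoc, h.isCE.tw.dd, ← mul_assoc (twd _ _) (twd _ _),
    h.isCE.tw.dd, mul_assoc]
  simp

theorem IsFock.phiM_D (h : IsFock x ι e) :
    dg (nF x ι + 1) * phiM e = phiM e * dg (nF x ι + 1) := by
  ext a b
  fin_cases a <;> fin_cases b <;> simp [phiM, dg, nF] <;> fock_norm h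

end fock

section node
variable {R : Type} [Ring R] [Algebra ℂ R]

theorem aeval_eq_zero_of_eig {κ : Type} (s : Finset κ) (y : κ → R) (c : κ → ℂ) (D : R) (p : ℂ[X])
    (h1 : ∑ i ∈ s, y i = 1) (hy : ∀ i ∈ s, D * y i = c i • y i)
    (hp : ∀ i ∈ s, y i = 0 ∨ p.eval (c i) = 0) : aeval D p = 0 := by
  rw [← mul_one (aeval D p), ← h1, Finset.mul_sum]
  refine Finset.sum_eq_zero fun i hi => ?_
  rcases hp i hi with h | h
  · rw [h, mul_zero]
  · have := aeval_smul_eig D (c i) (y i) (hy i hi) p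
    rw [h, zero_smul] at this
    exact this

theorem node_add_idem {m : ℕ} (hm : 0 < m) {N n : R} (hN : aeval N (nodePoly m) = 0)
    (hn : n * n = n) (hc : N * n = n * N) : aeval (N + n) (nodePoly (m + 1)) = 0 := by
  refine aeval_eq_zero_of_eig (Finset.range m ×ˢ (Finset.univ : Finset Bool))
    (fun p => if p.2 then n * eps m N p.1 else (1 - n) * eps m N p.1)
    (fun p => if p.2 then ((p.1 + 1 : ℕ) : ℂ) else (p.1 : ℂ)) _ _ ?_ ?_ ?_
  · rw [Finset.sum_product]
    refine Eq.trans (Finset.sum_congr rfl fun l _ => ?_) (eps_sum hm N)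
    simp [sub_mul]
  · rintro ⟨l, b⟩ hl
    have hl' : l < m := by simpa using hl
    have := D_mul_eps hN hl'
    cases b
    · simp only [Bool.false_eq_true, if_false]
      rw [← mul_assoc, show (N + n) * (1 - n) = (1 - n) * N by
        rw [add_mul, mul_sub, mul_sub, hn, hc, sub_mul]; simp, mul_assoc, this, mul_smul_comm]
    · simp only [if_true]
      rw [← mul_assoc, show (N + n) * n = n * N + n by rw [add_mul, hn, hc], add_mul, mul_assoc,
        this, mul_smul_comm, Nat.cast_succ, add_smul, one_smul]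
  · rintro ⟨l, b⟩ hl
    have hl' : l < m := by simpa using hl
    right
    cases b
    · exact nodePoly_eval_zero _ _ (by omega)
    · exact nodePoly_eval_zero _ _ (by omega)

theorem aeval_add_one {m : ℕ} (hm : 0 < m) {N : R} (hN : aeval N (nodePoly m) = 0) (p : ℂ[X])
    (hp : ∀ l < m, p.eval ((l + 1 : ℕ) : ℂ) = 0) : aeval (N + 1) p = 0 := by
  refine aeval_eq_zero_of_eig (Finset.range m) (fun l => eps m N l) (fun l => ((l + 1 : ℕ) : ℂ)) _ _
    (eps_sum hm N) (fun l hl => ?_) (fun l hl => Or.inr (hp l (Finset.mem_range.1 hl)))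
  rw [add_mul, D_mul_eps hN (Finset.mem_range.1 hl), Nat.cast_succ, add_smul, one_smul, one_mul]

theorem node_sub_one {m : ℕ} (hm : 0 < m) {D : R} (hD : aeval D (nodePoly m) = 0)
    (h0 : eps m D 0 = 0) : aeval (D - 1) (nodePoly m) = 0 := by
  refine aeval_eq_zero_of_eig (Finset.range m) (fun l => eps m D l) (fun l => (l : ℂ) - 1) _ _
    (eps_sum hm D) (fun l hl => ?_) (fun l hl => ?_)
  · rw [sub_mul, D_mul_eps hD (Finset.mem_range.1 hl), sub_smul, one_smul, one_mul]
  · rcases l with _ | l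
    · exact Or.inl h0
    · right
      have := nodePoly_eval_zero m l (by have := Finset.mem_range.1 hl; omega)
      simpa using this

variable {x ι e : Fin 4 → R}

theorem IsFock.node5 (h : IsFock x ι e) : aeval (nF x ι) (nodePoly 5) = 0 := by
  have h0 : aeval (0 : R) (nodePoly 1) = 0 := by simp [nodePoly]
  have h1 := node_add_idem (n := x 0 * ι 0) (by norm_num) h0 (by fock_norm h) (by simp)
  have h2 := node_add_idem (n := x 1 * ι 1) (by norm_num) h1 (by fock_norm h) (by fock_norm h)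
  have h3 := node_add_idem (n := x 2 * ι 2) (by norm_num) h2 (by fock_norm h) (by fock_norm h)
  have h4 := node_add_idem (n := x 3 * ι 3) (by norm_num) h3 (by fock_norm h) (by fock_norm h)
  rw [zero_add] at h4
  exact h4

theorem IsFock.node6 (h : IsFock x ι e) : aeval (nF x ι + 1) (nodePoly 6) = 0 :=
  aeval_add_one (by norm_num) h.node5 _ fun l hl => nodePoly_eval_zero _ _ (by omega)

theorem IsFock.eps0 (h : IsFock x ι e) : eps 6 (nF x ι + 1) 0 = 0 :=
  aeval_add_one (by norm_num) h.node5 _ fun l hl => by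
    rw [lagPoly_eval 6 0 (l + 1) (by norm_num) (by omega), if_neg (by omega)]

theorem aeval_diag2 (a b : R) (p : ℂ[X]) :
    aeval (!![a, 0; 0, b] : Matrix (Fin 2) (Fin 2) R) p = !![aeval a p, 0; 0, aeval b p] := by
  have h1 : ∀ u v : R, (!![u, 0; 0, v] : Matrix (Fin 2) (Fin 2) R) =
      Matrix.diagonalAlgHom ℂ ![u, v] := fun u v => by
    ext i j
    fin_cases i <;> fin_cases j <;> simp
  rw [h1, h1, aeval_algHom_apply]
  congr 1
  funext i
  fin_cases i
  · exact (aeval_algHom_apply (Pi.evalAlgHom ℂ (fun _ : Fin 2 => R) 0) ![a, b] p).symm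
  · exact (aeval_algHom_apply (Pi.evalAlgHom ℂ (fun _ : Fin 2 => R) 1) ![a, b] p).symm

theorem aeval_diag2_eq_zero {a b : R} {p : ℂ[X]} (ha : aeval a p = 0) (hb : aeval b p = 0) :
    aeval (!![a, 0; 0, b] : Matrix (Fin 2) (Fin 2) R) p = 0 := by
  rw [aeval_diag2, ha, hb]
  ext i j
  fin_cases i <;> fin_cases j <;> simp

theorem dg_sub_one (D : R) : dg D - 1 = dg (D - 1) := by
  ext i j
  fin_cases i <;> fin_cases j <;> simp [dg]

end node

end Crest.Agent.R178
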