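import Mathlib
import Crest.Agent.R178.CE
import Crest.Agent.R178.Abstract2

/-!
The algebras `B` (dg-modules over the Chevalley–Eilenberg algebra of `gl₂` in degrees `0..5`)
and `C = B / (e₀)`, and the datum of the trivial extension.
-/

set_option autoImplicit false
set_option linter.unusedSectionVars false

namespace Crest.Agent.R178

open Polynomial

/-- generators -/
abbrev Gen : Type := Option (Option (Fin 4))

/-- values of the generators -/
def genv {R : Type} (x : Fin 4 → R) (d D : R) : Gen → R
  | none => D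
  | some none => d
  | some (some k) => x k

/-- the relations: everything that holds in all models -/
def rel (u v : FreeAlgebra ℂ Gen) : Prop :=
  ∀ (R : Type) [Ring R] [Algebra ℂ R] (x : Fin 4 → R) (d D : R), IsCE x d D →
    aeval D (nodePoly 6) = 0 →
      FreeAlgebra.lift ℂ (genv x d D) u = FreeAlgebra.lift ℂ (genv x d D) v

/-- the algebra `B` -/
def BB : Type := RingQuot rel

noncomputable instance : Ring BB := inferInstanceAs (Ring (RingQuot rel))
noncomputable instance : Algebra ℂ BB := inferInstanceAs (Algebra ℂ (RingQuot rel))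

/-- the quotient map -/
noncomputable def mkB : FreeAlgebra ℂ Gen →ₐ[ℂ] BB := RingQuot.mkAlgHom ℂ rel

theorem mkB_surjective : Function.Surjective mkB := RingQuot.mkAlgHom_surjective ℂ rel

noncomputable def bx (k : Fin 4) : BB := mkB (FreeAlgebra.ι ℂ (some (some k)))
noncomputable def bd : BB := mkB (FreeAlgebra.ι ℂ (some none))
noncomputable def bD : BB := mkB (FreeAlgebra.ι ℂ none)

section lift
variable {R : Type} [Ring R] [Algebra ℂ R] {x : Fin 4 → R} {d D : R}

/-- the universal property -/
noncomputable def liftB (h : IsCE x d D) (hP : aeval D (nodePoly 6) = 0) : BB →ₐ[ℂ] R :=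
  RingQuot.liftAlgHom ℂ ⟨FreeAlgebra.lift ℂ (genv x d D), fun _ _ huv => huv R x d D h hP⟩

theorem liftB_mkB (h : IsCE x d D) (hP : aeval D (nodePoly 6) = 0) (u : FreeAlgebra ℂ Gen) :
    liftB h hP (mkB u) = FreeAlgebra.lift ℂ (genv x d D) u :=
  RingQuot.liftAlgHom_mkAlgHom_apply ℂ _ _ u

@[simp] theorem liftB_x (h : IsCE x d D) (hP : aeval D (nodePoly 6) = 0) (k : Fin 4) :
    liftB h hP (bx k) = x k := by
  rw [bx, liftB_mkB, FreeAlgebra.lift_ι_apply]; rfl

@[simp] theorem liftB_d (h : IsCE x d D) (hP : aeval D (nodePoly 6) = 0) :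
    liftB h hP bd = d := by
  rw [bd, liftB_mkB, FreeAlgebra.lift_ι_apply]; rfl

@[simp] theorem liftB_D (h : IsCE x d D) (hP : aeval D (nodePoly 6) = 0) :
    liftB h hP bD = D := by
  rw [bD, liftB_mkB, FreeAlgebra.lift_ι_apply]; rfl

end lift

theorem B_ext {a b : BB} (H : ∀ (R : Type) [Ring R] [Algebra ℂ R] (x : Fin 4 → R) (d D : R)
    (h : IsCE x d D) (hP : aeval D (nodePoly 6) = 0), liftB h hP a = liftB h hP b) : a = b := by
  obtain ⟨u, rfl⟩ := mkB_surjective a
  obtain ⟨v, rfl⟩ := mkB_surjective b
  refine RingQuot.mkAlgHom_rel ℂ (s := rel) fun R _ _ x d D h hP => ?_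
  rw [← liftB_mkB h hP, ← liftB_mkB h hP]
  exact H R x d D h hP

theorem isCE_B : IsCE bx bd bD where
  anti i j := B_ext fun _ _ _ _ _ _ h _ => by simpa using h.anti i j
  sq i := B_ext fun _ _ _ _ _ _ h _ => by simpa using h.sq i
  dd := B_ext fun _ _ _ _ _ _ h _ => by simpa using h.dd
  d0 := B_ext fun _ _ _ _ _ _ h _ => by simpa using h.d0
  d1 := B_ext fun _ _ _ _ _ _ h _ => by simpa using h.d1
  d2 := B_ext fun _ _ _ _ _ _ h _ => by simpa using h.d2
  d3 := B_ext fun _ _ _ _ _ _ h _ => by simpa using h.d3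
  Dx i := B_ext fun _ _ _ _ _ _ h _ => by simpa using h.Dx i
  Dd := B_ext fun _ _ _ _ _ _ h _ => by simpa using h.Dd

theorem node_B : aeval bD (nodePoly 6) = 0 :=
  B_ext fun _ _ _ _ _ _ h hP => by rw [← aeval_algHom_apply, liftB_D, hP, map_zero]

/-- raising generators -/
def raise {R : Type} (x : Fin 4 → R) (d : R) : Option (Fin 4) → R
  | none => d
  | some k => x k

/-- `B` is directed -/
noncomputable def dirB : Directed BB (Option (Fin 4)) 6 where
  D := bD
  a := raise bx bd
  pos := by norm_num
  comm i := by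
    cases i with
    | none => exact isCE_B.Dd
    | some k => exact isCE_B.Dx k
  node := node_B
  gen := by
    rw [eq_top_iff]
    rintro b -
    obtain ⟨u, rfl⟩ := mkB_surjective b
    induction u using FreeAlgebra.induction with
    | grade0 r => rw [AlgHom.commutes]; exact Subalgebra.algebraMap_mem _ r
    | grade1 g =>
      refine Algebra.subset_adjoin ?_
      rcases g with _ | _ | k
      · exact Or.inl rfl
      · exact Or.inr ⟨none, rfl⟩
      · exact Or.inr ⟨some k, rfl⟩
    | mul a b ha hb => rw [map_mul]; exact Subalgebra.mul_mem _ ha hb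
    | add a b ha hb => rw [map_add]; exact Subalgebra.add_mem _ ha hb

/-- the idempotent of degree zero -/
noncomputable def e0 : BB := eps 6 bD 0

/-- the ideal generated by the idempotent of degree zero -/
noncomputable def II : Ideal BB := Ideal.span {e0}

instance : II.IsTwoSided where
  mul_mem_of_left {a} b ha := by
    obtain ⟨r, rfl⟩ := Ideal.mem_span_singleton'.1 ha
    refine Ideal.mem_span_singleton'.2 ⟨r * (e0 * b), ?_⟩
    have := dirB.eps_zero_mul b
    rw [mul_assoc, mul_assoc r]
    exact congrArg (r * ·) this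

/-- the algebra `C` -/
abbrev CC : Type := BB ⧸ II

/-- the projection -/
noncomputable def piB : BB →ₐ[ℂ] CC := Ideal.Quotient.mkₐ ℂ II

theorem piB_surjective : Function.Surjective piB := Ideal.Quotient.mkₐ_surjective ℂ II

theorem piB_e0 : piB e0 = 0 :=
  Ideal.Quotient.eq_zero_iff_mem.2 (Ideal.subset_span rfl)

theorem isCE_C : IsCE (fun k => piB (bx k)) (piB bd) (piB bD) := isCE_B.map piB

theorem node_C : aeval (piB bD) (nodePoly 6) = 0 := by
  rw [aeval_algHom_apply, node_B, map_zero]

theorem eps0_C : eps 6 (piB bD) 0 = 0 := by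
  rw [← piB_e0, e0, eps, eps, aeval_algHom_apply]

/-- `C` is directed -/
noncomputable def dirC : Directed CC (Option (Fin 4)) 6 where
  D := piB bD
  a i := piB (raise bx bd i)
  pos := by norm_num
  comm i := by rw [← map_mul, ← map_mul, ← map_add]; exact congrArg piB (dirB.comm i)
  node := node_C
  gen := by
    rw [eq_top_iff]
    rintro c -
    obtain ⟨b, rfl⟩ := piB_surjective c
    induction b using dirB.induction with
    | hD => exact Algebra.subset_adjoin (Or.inl rfl)
    | ha i => exact Algebra.subset_adjoin (Or.inr ⟨i, rfl⟩)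
    | hc r => rw [AlgHom.commutes]; exact Subalgebra.algebraMap_mem _ r
    | hadd a b ha hb => rw [map_add]; exact Subalgebra.add_mem _ ha hb
    | hmul a b ha hb => rw [map_mul]; exact Subalgebra.mul_mem _ ha hb

instance : FiniteDimensional ℂ BB := dirB.finiteDimensional
instance : FiniteDimensional ℂ CC := dirC.finiteDimensional

theorem node_theta : aeval (!![dg (piB bD), 0; 0, dg (piB bD) - 1] :
    Matrix (Fin 2) (Fin 2) (Matrix (Fin 2) (Fin 2) CC)) (nodePoly 6) = 0 := by
  refine aeval_diag2_eq_zero (aeval_diag2_eq_zero node_C node_C) ?_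
  rw [dg_sub_one]
  have := node_sub_one (by norm_num) node_C eps0_C
  exact aeval_diag2_eq_zero this this

/-- the left action on the bimodule, as block matrices -/
noncomputable def theta' : BB →ₐ[ℂ] Matrix (Fin 2) (Fin 2) (Matrix (Fin 2) (Fin 2) CC) :=
  liftB isCE_C.theta node_theta

/-- the datum -/
noncomputable def TT : Datum BB CC (Fin 2 × Fin 2) where
  π := piB
  Θ := (Matrix.compAlgEquiv (Fin 2) (Fin 2) CC ℂ).toAlgHom.comp theta'
  surj := piB_surjective
  e := e0
  he := dirB.eps_mul_self (by norm_num)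
  πe := piB_e0
  ker b hb := by
    have hb' : b ∈ II := Ideal.Quotient.eq_zero_iff_mem.1 hb
    obtain ⟨r, rfl⟩ := Ideal.mem_span_singleton'.1 hb'
    rw [mul_assoc]
    exact congrArg (r * ·) (dirB.eps_mul_self (by norm_num))

theorem TT_Θ (b : BB) (s t : Fin 2 × Fin 2) : TT.Θ b s t = theta' b s.1 t.1 s.2 t.2 := rfl

/-- operators on a vector space defining a `B`-module -/
structure Ops (X : Type) [AddCommGroup X] [Module ℂ X] where
  x : Fin 4 → Module.End ℂ X
  d : Module.End ℂ X
  D : Module.End ℂ X
  ce : IsCE x d D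
  node : aeval D (nodePoly 6) = 0

namespace Ops

variable {X : Type} [AddCommGroup X] [Module ℂ X] (o : Ops X)

/-- the representation of `B` -/
noncomputable def rep : BB →ₐ[ℂ] Module.End ℂ X := liftB o.ce o.node

/-- the `B`-module -/
def Mod (_o : Ops X) : Type := X

instance : AddCommGroup o.Mod := inferInstanceAs (AddCommGroup X)
instance : Module ℂ o.Mod := inferInstanceAs (Module ℂ X)
noncomputable instance : Module BB o.Mod := Module.compHom X o.rep.toRingHom

theorem Mod_smul (b : BB) (w : o.Mod) : b • w = (o.rep b (show X from w) : X) := rfl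

instance : IsScalarTower ℂ BB o.Mod where
  smul_assoc c b w := by
    rw [Mod_smul, Mod_smul, map_smul]; rfl

theorem x_smul (k : Fin 4) (w : o.Mod) : bx k • w = (o.x k (show X from w) : X) := by
  rw [Mod_smul, rep, liftB_x]

theorem d_smul (w : o.Mod) : bd • w = (o.d (show X from w) : X) := by
  rw [Mod_smul, rep, liftB_d]

theorem D_smul (w : o.Mod) : bD • w = (o.D (show X from w) : X) := by
  rw [Mod_smul, rep, liftB_D]

/-- no degree zero part -/
def Pos : Prop := eps 6 o.D 0 = 0

theorem rep_e0 (h : o.Pos) : o.rep e0 = 0 := by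
  rw [e0, eps, ← aeval_algHom_apply, rep, liftB_D]
  exact h

/-- the representation of `C` -/
noncomputable def repC (h : o.Pos) : CC →ₐ[ℂ] Module.End ℂ X :=
  Ideal.Quotient.liftₐ II o.rep fun a ha => by
    obtain ⟨r, rfl⟩ := Ideal.mem_span_singleton'.1 ha
    rw [map_mul, o.rep_e0 h, mul_zero]

theorem repC_piB (h : o.Pos) (b : BB) : o.repC h (piB b) = o.rep b := rfl

/-- the `C`-module -/
def ModC (_o : Ops X) (_h : _o.Pos) : Type := X

variable (h : o.Pos)

instance : AddCommGroup (o.ModC h) := inferInstanceAs (AddCommGroup X)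
instance : Module ℂ (o.ModC h) := inferInstanceAs (Module ℂ X)
noncomputable instance : Module CC (o.ModC h) := Module.compHom X (o.repC h).toRingHom

theorem ModC_smul (c : CC) (w : o.ModC h) : c • w = (o.repC h c (show X from w) : X) := rfl

instance : IsScalarTower ℂ CC (o.ModC h) where
  smul_assoc c b w := by
    rw [ModC_smul, ModC_smul, map_smul]; rfl

/-- the restriction of the `C`-module is the `B`-module -/
noncomputable def toRes : o.Mod →ₗ[BB] TT.Res (o.ModC h) where
  toFun w := w
  map_add' _ _ := rfl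
  map_smul' _ _ := rfl

/-- the restriction of the `C`-module is the `B`-module -/
noncomputable def ofRes : TT.Res (o.ModC h) →ₗ[BB] o.Mod where
  toFun w := w
  map_add' _ _ := rfl
  map_smul' _ _ := rfl

variable {X' : Type} [AddCommGroup X'] [Module ℂ X']

/-- a linear map commuting with the operators is `B`-linear -/
noncomputable def hom (o : Ops X) (o' : Ops X') (f : X →ₗ[ℂ] X')
    (hx : ∀ k w, f (o.x k w) = o'.x k (f w)) (hd : ∀ w, f (o.d w) = o'.d (f w))
    (hD : ∀ w, f (o.D w) = o'.D (f w)) : o.Mod →ₗ[BB] o'.Mod :=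
  dirB.mkLinear (M := o.Mod) (M' := o'.Mod) f
    (fun w => by
      change f (bD • w : o.Mod) = (bD • (show o'.Mod from f w) : o'.Mod)
      rw [D_smul, D_smul]; exact hD w)
    (fun i w => by
      cases i with
      | none =>
        change f (bd • w : o.Mod) = (bd • (show o'.Mod from f w) : o'.Mod)
        rw [d_smul, d_smul]; exact hd w
      | some k =>
        change f (bx k • w : o.Mod) = (bx k • (show o'.Mod from f w) : o'.Mod)
        rw [x_smul, x_smul]; exact hx k w)

theorem hom_apply (o : Ops X) (o' : Ops X') (f : X →ₗ[ℂ] X')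
    (hx : ∀ k w, f (o.x k w) = o'.x k (f w)) (hd : ∀ w, f (o.d w) = o'.d (f w))
    (hD : ∀ w, f (o.D w) = o'.D (f w)) (w : X) : hom o o' f hx hd hD w = f w := rfl

end Ops

end Crest.Agent.R178
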