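import Mathlib
import Crest.Agent.R178.Alg

/-!
Twists and cones of dg-modules; cones of identities of free modules are projective.
-/

set_option autoImplicit false
set_option linter.unusedSectionVars false

namespace Crest.Agent.R178

open Polynomial

variable {X : Type} [AddCommGroup X] [Module ℂ X]

/-- matrices of operators act on pairs -/
noncomputable def mat2 :
    Matrix (Fin 2) (Fin 2) (Module.End ℂ X) →ₐ[ℂ] Module.End ℂ (Fin 2 → X) :=
  (endVecAlgEquivMatrixEnd (Fin 2) ℂ ℂ X).symm.toAlgHom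

theorem mat2_apply (m : Matrix (Fin 2) (Fin 2) (Module.End ℂ X)) (z : Fin 2 → X) (i : Fin 2) :
    mat2 m z i = m i 0 (z 0) + m i 1 (z 1) := by
  change ∑ j, m i j (z j) = _
  rw [Fin.sum_univ_two]

theorem fin2_ext {Y : Type} {z w : Fin 2 → Y} (h0 : z 0 = w 0) (h1 : z 1 = w 1) : z = w := by
  funext i
  fin_cases i
  · exact h0
  · exact h1

namespace Ops

variable (o : Ops X)

/-- the tensor product with the dual of the standard representation -/
noncomputable def tw : Ops (Fin 2 → X) where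
  x k := mat2 (dg (o.x k))
  d := mat2 (twd o.x o.d)
  D := mat2 (dg o.D)
  ce := o.ce.tw.map mat2
  node := by rw [aeval_algHom_apply, dg, aeval_diag2_eq_zero o.node o.node, map_zero]

theorem tw_pos (h : o.Pos) : o.tw.Pos := by
  change aeval (mat2 (dg o.D)) _ = 0
  rw [aeval_algHom_apply, dg, aeval_diag2_eq_zero h h, map_zero]

theorem tw_x (k : Fin 4) (z : Fin 2 → X) (i : Fin 2) : o.tw.x k z i = o.x k (z i) := by
  fin_cases i <;> simp [tw, mat2_apply, dg]

theorem tw_D (z : Fin 2 → X) (i : Fin 2) : o.tw.D z i = o.D (z i) := by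
  fin_cases i <;> simp [tw, mat2_apply, dg]

theorem tw_d0 (z : Fin 2 → X) : o.tw.d z 0 = o.d (z 0) - o.x 0 (z 0) - o.x 2 (z 1) := by
  simp [tw, mat2_apply, twd, sub_eq_add_neg]

theorem tw_d1 (z : Fin 2 → X) : o.tw.d z 1 = o.d (z 1) - o.x 1 (z 0) - o.x 3 (z 1) := by
  simp only [tw, mat2_apply, twd]
  simp
  abel

/-- the shifted module -/
noncomputable def neg (h : o.Pos) : Ops X where
  x k := -o.x k
  d := -o.d
  D := o.D - 1
  ce := o.ce.neg
  node := node_sub_one (by norm_num) o.node h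

/-- an endomorphism of the module -/
structure IsEnd (φ : Module.End ℂ X) : Prop where
  hx : ∀ k, φ * o.x k = o.x k * φ
  hd : φ * o.d = o.d * φ
  hD : o.D * φ = φ * o.D

theorem isEnd_one : o.IsEnd 1 := ⟨by simp, by simp, by simp⟩

/-- the mapping cone -/
noncomputable def cone (h : o.Pos) (φ : Module.End ℂ X) (hφ : o.IsEnd φ) : Ops (Fin 2 → X) where
  x k := mat2 !![o.x k, 0; 0, -o.x k]
  d := mat2 !![o.d, φ; 0, -o.d]
  D := mat2 !![o.D, 0; 0, o.D - 1]
  ce := (o.ce.cone (fun _ => 0) φ (by simp) (by simp) hφ.hx hφ.hd hφ.hD (by simp) (by simp)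
    (by simp) (by simp)).map mat2
  node := by
    rw [aeval_algHom_apply, aeval_diag2_eq_zero o.node (node_sub_one (by norm_num) o.node h),
      map_zero]

variable (h : o.Pos) (φ : Module.End ℂ X) (hφ : o.IsEnd φ)

theorem cone_x0 (k : Fin 4) (z : Fin 2 → X) : (o.cone h φ hφ).x k z 0 = o.x k (z 0) := by
  simp [cone, mat2_apply]
theorem cone_x1 (k : Fin 4) (z : Fin 2 → X) : (o.cone h φ hφ).x k z 1 = -o.x k (z 1) := by
  simp [cone, mat2_apply]
theorem cone_d0 (z : Fin 2 → X) : (o.cone h φ hφ).d z 0 = o.d (z 0) + φ (z 1) := by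
  simp [cone, mat2_apply]
theorem cone_d1 (z : Fin 2 → X) : (o.cone h φ hφ).d z 1 = -o.d (z 1) := by
  simp [cone, mat2_apply]
theorem cone_D0 (z : Fin 2 → X) : (o.cone h φ hφ).D z 0 = o.D (z 0) := by
  simp [cone, mat2_apply]
theorem cone_D1 (z : Fin 2 → X) : (o.cone h φ hφ).D z 1 = o.D (z 1) - z 1 := by
  simp [cone, mat2_apply]

/-- inclusion into the cone -/
noncomputable def coneInc : o.Mod →ₗ[BB] (o.cone h φ hφ).Mod :=
  hom o (o.cone h φ hφ) (LinearMap.single ℂ (fun _ : Fin 2 => X) 0)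
    (fun k w => fin2_ext (by simp [cone_x0]) (by simp [cone_x1]))
    (fun w => fin2_ext (by simp [cone_d0]) (by simp [cone_d1]))
    (fun w => fin2_ext (by simp [cone_D0]) (by simp [cone_D1]))

/-- projection from the cone -/
noncomputable def conePr : (o.cone h φ hφ).Mod →ₗ[BB] (o.neg h).Mod :=
  hom (o.cone h φ hφ) (o.neg h) (LinearMap.proj 1)
    (fun k w => by simp [cone_x1, neg])
    (fun w => by simp [cone_d1, neg])
    (fun w => by simp [cone_D1, neg])

theorem coneInc_injective : Function.Injective (o.coneInc h φ hφ) := fun a b hab => by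
  have := congrFun (show (Pi.single 0 a : Fin 2 → X) = Pi.single 0 b from hab) 0
  simp only [Pi.single_eq_same] at this
  exact this

theorem conePr_surjective : Function.Surjective (o.conePr h φ hφ) := fun w =>
  ⟨(![0, w] : Fin 2 → X), rfl⟩

theorem cone_exact : Function.Exact (o.coneInc h φ hφ) (o.conePr h φ hφ) := by
  intro z
  constructor
  · intro hz
    refine ⟨(show Fin 2 → X from z) 0, ?_⟩
    change (Pi.single 0 ((show Fin 2 → X from z) 0) : Fin 2 → X) = z
    refine fin2_ext (by simp) ?_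
    simpa using (show (show Fin 2 → X from z) 1 = 0 from hz).symm
  · rintro ⟨w, rfl⟩
    change (Pi.single 0 w : Fin 2 → X) 1 = 0
    simp

/-- free over the exterior algebra on generators of degree one -/
def LamFree : Prop :=
  ∃ (Z : Type) (_ : AddCommGroup Z) (_ : Module ℂ Z) (j : Z →ₗ[ℂ] X),
    (∀ z, o.D (j z) = j z) ∧
    (∀ U : Submodule ℂ X, (∀ z, j z ∈ U) → (∀ k, ∀ w ∈ U, o.x k w ∈ U) → ∀ w, w ∈ U) ∧
    (∀ (M : Type) [AddCommGroup M] [Module ℂ M] (η : Fin 4 → Module.End ℂ M),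
      (∀ i j, η i * η j = -(η j * η i)) → (∀ i, η i * η i = 0) → ∀ u0 : Z →ₗ[ℂ] M,
        ∃ u : X →ₗ[ℂ] M, (∀ z, u (j z) = u0 z) ∧ ∀ k w, u (o.x k w) = η k (u w))

theorem LamFree.tw {o : Ops X} (hF : o.LamFree) : o.tw.LamFree := by
  obtain ⟨Z, _, _, j, h1, h2, h3⟩ := hF
  refine ⟨Fin 2 → Z, inferInstance, inferInstance, j.compLeft (Fin 2), fun z => ?_,
    fun U hU hU' w => ?_, fun M _ _ η ha hs u0 => ?_⟩
  · funext i
    rw [tw_D]
    exact h1 (z i)
  · have key : ∀ (i : Fin 2) (v : X), (Pi.single i v : Fin 2 → X) ∈ U := fun i v => by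
      refine h2 (U.comap (LinearMap.single ℂ (fun _ : Fin 2 => X) i)) (fun z => ?_)
        (fun k w hw => ?_) v
      · have := hU (Pi.single i z)
        change (Pi.single i (j z) : Fin 2 → X) ∈ U
        convert this using 1
        funext l
        by_cases hl : l = i
        · subst hl; simp
        · simp [Pi.single_eq_of_ne hl]
      · have := hU' k _ hw
        change (Pi.single i (o.x k w) : Fin 2 → X) ∈ U
        convert this using 1
        funext l
        rw [tw_x]
        by_cases hl : l = i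
        · subst hl; simp
        · simp [Pi.single_eq_of_ne hl]
    have : w = Pi.single 0 (w 0) + Pi.single 1 (w 1) := fin2_ext (by simp) (by simp)
    rw [this]
    exact U.add_mem (key 0 _) (key 1 _)
  · obtain ⟨u₀, a₀, b₀⟩ := h3 M η ha hs (u0 ∘ₗ LinearMap.single ℂ (fun _ : Fin 2 => Z) 0)
    obtain ⟨u₁, a₁, b₁⟩ := h3 M η ha hs (u0 ∘ₗ LinearMap.single ℂ (fun _ : Fin 2 => Z) 1)
    refine ⟨u₀ ∘ₗ LinearMap.proj 0 + u₁ ∘ₗ LinearMap.proj 1, fun z => ?_, fun k w => ?_⟩
    · change u₀ (j (z 0)) + u₁ (j (z 1)) = u0 z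
      rw [a₀, a₁]
      simp only [LinearMap.comp_apply, ← map_add]
      congr 1
      exact fin2_ext (by simp) (by simp)
    · change u₀ (o.tw.x k w 0) + u₁ (o.tw.x k w 1) = η k (u₀ (w 0) + u₁ (w 1))
      rw [tw_x, tw_x, b₀, b₁, map_add]

/-- the second inclusion into the cone (only `ℂ`-linear) -/
def inc1 : X →ₗ[ℂ] (o.cone h φ hφ).Mod := LinearMap.single ℂ (fun _ : Fin 2 => X) 1

theorem x_inc1 (k : Fin 4) (w : X) : bx k • o.inc1 h φ hφ w = -o.inc1 h φ hφ (o.x k w) := by
  rw [x_smul]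
  change (o.cone h φ hφ).x k (Pi.single 1 w) = -(Pi.single 1 (o.x k w) : Fin 2 → X)
  exact fin2_ext (by simp [cone_x0]) (by simp [cone_x1])

theorem e0_inc1 (w : X) (hw : o.D w = w) : e0 • o.inc1 h φ hφ w = o.inc1 h φ hφ w := by
  have : bD • o.inc1 h φ hφ w = ((0 : ℕ) : ℂ) • o.inc1 h φ hφ w := by
    rw [D_smul, Nat.cast_zero, zero_smul]
    change (o.cone h φ hφ).D (Pi.single 1 w) = (0 : Fin 2 → X)
    exact fin2_ext (by simp [cone_D0]) (by simp [cone_D1, hw])
  have h2 := eps_smul_eig node_B (by norm_num : 0 < 6) this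
  rwa [if_pos rfl] at h2

theorem cone_one_decomp (z : (o.cone h 1 o.isEnd_one).Mod) :
    z = bd • o.inc1 h 1 o.isEnd_one ((show Fin 2 → X from z) 0) +
      o.inc1 h 1 o.isEnd_one (o.d ((show Fin 2 → X from z) 0)) +
      o.inc1 h 1 o.isEnd_one ((show Fin 2 → X from z) 1) := by
  rw [d_smul]
  change (show Fin 2 → X from z) = (o.cone h 1 o.isEnd_one).d (Pi.single 1 _) +
    (Pi.single 1 _ : Fin 2 → X) + (Pi.single 1 _ : Fin 2 → X)
  exact fin2_ext (by simp [cone_d0]) (by simp [cone_d1])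

theorem cone_gen (hF : o.LamFree) (z : (o.cone h 1 o.isEnd_one).Mod) :
    z ∈ Submodule.span BB {z : (o.cone h 1 o.isEnd_one).Mod | e0 • z = z} := by
  obtain ⟨Z, _, _, j, h1, h2, -⟩ := hF
  have key : ∀ w, o.inc1 h 1 o.isEnd_one w ∈
      Submodule.span BB {z : (o.cone h 1 o.isEnd_one).Mod | e0 • z = z} := by
    refine h2 (((Submodule.span BB {z : (o.cone h 1 o.isEnd_one).Mod | e0 • z = z}).restrictScalars
      ℂ).comap (o.inc1 h 1 o.isEnd_one)) (fun z => ?_) (fun k w hw => ?_)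
    · exact Submodule.subset_span (o.e0_inc1 h 1 o.isEnd_one _ (h1 z))
    · change o.inc1 h 1 o.isEnd_one (o.x k w) ∈ Submodule.span BB _
      rw [← neg_neg (o.inc1 h 1 o.isEnd_one (o.x k w)), ← x_inc1]
      exact Submodule.neg_mem _ (Submodule.smul_mem _ _ hw)
  rw [o.cone_one_decomp h z]
  exact Submodule.add_mem _ (Submodule.add_mem _ (Submodule.smul_mem _ _ (key _)) (key _)) (key _)

theorem cone_lift (hF : o.LamFree) (M : Type) [AddCommGroup M] [Module ℂ M] [Module BB M]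
    [IsScalarTower ℂ BB M] (q : M →ₗ[BB] (o.cone h 1 o.isEnd_one).Mod)
    (hq : Function.Surjective q) :
    ∃ G : (o.cone h 1 o.isEnd_one).Mod →ₗ[BB] M, q ∘ₗ G = LinearMap.id := by
  obtain ⟨Z, _, _, j, h1, h2, h3⟩ := hF
  let L : BB →ₐ[ℂ] Module.End ℂ M := Algebra.lsmul ℂ ℂ M
  have hL : ∀ b m, L b m = b • m := fun _ _ => rfl
  obtain ⟨u1, hu1⟩ := Module.projective_lifting_property (q.restrictScalars ℂ)
    (o.inc1 h 1 o.isEnd_one ∘ₗ j) hq
  have hce := (isCE_B.map L).neg
  obtain ⟨u, hu, hux⟩ := h3 M (fun k => -L (bx k)) hce.anti hce.sq (L e0 ∘ₗ u1)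
  replace hux : ∀ k w, u (o.x k w) = -(bx k • u w) := hux
  have hA : ∀ w, q (u w) = o.inc1 h 1 o.isEnd_one w := by
    refine h2 (LinearMap.eqLocus (q.restrictScalars ℂ ∘ₗ u) (o.inc1 h 1 o.isEnd_one))
      (fun z => ?_) (fun k w hw => ?_)
    · change q (u (j z)) = o.inc1 h 1 o.isEnd_one (j z)
      have : q (u1 z) = o.inc1 h 1 o.isEnd_one (j z) := LinearMap.congr_fun hu1 z
      rw [hu, LinearMap.comp_apply, hL, map_smul, this, o.e0_inc1 h 1 o.isEnd_one _ (h1 z)]
    · have hw' : q (u w) = o.inc1 h 1 o.isEnd_one w := hw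
      change q (u (o.x k w)) = o.inc1 h 1 o.isEnd_one (o.x k w)
      rw [hux, map_neg, map_smul, hw', x_inc1, neg_neg]
  have hB : ∀ w, bD • u w = u (o.D w) - u w := by
    refine h2 (LinearMap.eqLocus (L bD ∘ₗ u) (u ∘ₗ o.D - u)) (fun z => ?_) (fun k w hw => ?_)
    · change bD • u (j z) = u (o.D (j z)) - u (j z)
      rw [h1, sub_self, hu, LinearMap.comp_apply, hL, e0,
        D_smul_eps node_B (by norm_num : 0 < 6), Nat.cast_zero, zero_smul]
    · have hw' : bD • u w = u (o.D w) - u w := hw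
      change bD • u (o.x k w) = u (o.D (o.x k w)) - u (o.x k w)
      have e1 : o.D (o.x k w) = o.x k (o.D w) + o.x k w := LinearMap.congr_fun (o.ce.Dx k) w
      rw [e1, map_add, add_sub_cancel_right, hux, hux, smul_neg, ← mul_smul, isCE_B.Dx, add_smul,
        mul_smul, hw', smul_sub, sub_add_cancel]
  have hdx : ∀ k w, u (o.d (o.x k w)) = bx k • u (o.d w) + bd • bx k • u w + bx k • bd • u w := by
    intro k w
    rw [← mul_smul bd]
    fin_cases k
    · have e1 : o.d (o.x 0 w) = -(o.x 0 (o.d w)) - o.x 1 (o.x 2 w) := LinearMap.congr_fun o.ce.d0 w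
      change u (o.d (o.x 0 w)) = bx 0 • u (o.d w) + (bd * bx 0) • u w + bx 0 • bd • u w
      rw [e1, isCE_B.d0]
      simp only [map_sub, map_neg, hux, sub_smul, neg_smul, mul_smul, smul_neg, neg_neg]
      abel
    · have e1 : o.d (o.x 1 w) = -(o.x 1 (o.d w)) - o.x 0 (o.x 1 w) - o.x 1 (o.x 3 w) :=
        LinearMap.congr_fun o.ce.d1 w
      change u (o.d (o.x 1 w)) = bx 1 • u (o.d w) + (bd * bx 1) • u w + bx 1 • bd • u w
      rw [e1, isCE_B.d1]
      simp only [map_sub, map_neg, hux, sub_smul, neg_smul, mul_smul, smul_neg, neg_neg]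
      abel
    · have e1 : o.d (o.x 2 w) = -(o.x 2 (o.d w)) + o.x 0 (o.x 2 w) + o.x 2 (o.x 3 w) :=
        LinearMap.congr_fun o.ce.d2 w
      change u (o.d (o.x 2 w)) = bx 2 • u (o.d w) + (bd * bx 2) • u w + bx 2 • bd • u w
      rw [e1, isCE_B.d2]
      simp only [map_add, map_neg, hux, add_smul, neg_smul, mul_smul, smul_neg, neg_neg]
      abel
    · have e1 : o.d (o.x 3 w) = -(o.x 3 (o.d w)) + o.x 1 (o.x 2 w) := LinearMap.congr_fun o.ce.d3 w
      change u (o.d (o.x 3 w)) = bx 3 • u (o.d w) + (bd * bx 3) • u w + bx 3 • bd • u w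
      rw [e1, isCE_B.d3]
      simp only [map_add, map_neg, hux, add_smul, neg_smul, mul_smul, smul_neg, neg_neg]
      abel
  let G0 : (Fin 2 → X) →ₗ[ℂ] M := L bd ∘ₗ u ∘ₗ LinearMap.proj 0 + u ∘ₗ o.d ∘ₗ LinearMap.proj 0 +
    u ∘ₗ LinearMap.proj 1
  have hG0 : ∀ z, G0 z = bd • u (z 0) + u (o.d (z 0)) + u (z 1) := fun _ => rfl
  let G : (o.cone h 1 o.isEnd_one).Mod →ₗ[BB] M :=
    dirB.mkLinear (M := (o.cone h 1 o.isEnd_one).Mod) G0
      (fun z => by
        change G0 (bD • z : (o.cone h 1 o.isEnd_one).Mod) = bD • G0 z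
        have e1 : ∀ w, o.D (o.d w) = o.d (o.D w) + o.d w := LinearMap.congr_fun o.ce.Dd
        rw [D_smul, hG0, hG0, cone_D0, cone_D1, smul_add, smul_add, ← mul_smul bD, isCE_B.Dd,
          add_smul, mul_smul, hB, hB, hB, e1]
        simp only [map_add, map_sub, smul_sub]
        abel)
      (fun i z => by
        cases i with
        | none =>
          change G0 (bd • z : (o.cone h 1 o.isEnd_one).Mod) = bd • G0 z
          have e1 : ∀ w, o.d (o.d w) = 0 := LinearMap.congr_fun o.ce.dd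
          rw [d_smul, hG0, hG0, cone_d0, cone_d1, smul_add, smul_add, ← mul_smul bd bd, isCE_B.dd]
          simp only [map_add, map_neg, e1, map_zero, zero_smul, Module.End.one_apply, smul_add]
          abel
        | some k =>
          change G0 (bx k • z : (o.cone h 1 o.isEnd_one).Mod) = bx k • G0 z
          rw [x_smul, hG0, hG0, cone_x0, cone_x1, hdx, map_neg, hux, hux]
          simp only [smul_add, smul_neg, neg_neg]
          abel)
  refine ⟨G, LinearMap.ext fun z => ?_⟩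
  change q (G0 z) = z
  rw [hG0, map_add, map_add, map_smul, hA, hA, hA]
  exact (o.cone_one_decomp h z).symm

theorem cone_projective (hF : o.LamFree) :
    Module.Projective TT.A (TT.Infl (o.cone h 1 o.isEnd_one).Mod) := by
  have : Module.Projective BB (o.cone h 1 o.isEnd_one).Mod :=
    Module.Projective.of_lifting_property'' fun q hq => o.cone_lift h hF _ q hq
  exact TT.projective_Infl _ (o.cone_gen h hF)

theorem finPD_cone_one (hF : o.LamFree) :
    FinPD TT.A (TT.Infl (o.cone h 1 o.isEnd_one).Mod) := by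
  have := o.cone_projective h hF
  exact FinPD.of_projective

theorem finPD_neg (hF : o.LamFree) (H : FinPD TT.A (TT.Infl o.Mod)) :
    FinPD TT.A (TT.Infl (o.neg h).Mod) := by
  have e1 := o.cone_exact h 1 o.isEnd_one
  have e2 := o.coneInc_injective h 1 o.isEnd_one
  have e3 := o.conePr_surjective h 1 o.isEnd_one
  exact FinPD.right (TT.inflMap (o.coneInc h 1 o.isEnd_one)) (TT.inflMap (o.conePr h 1 o.isEnd_one))
    e1 e2 e3 H (o.finPD_cone_one h hF)

end Ops

end Crest.Agent.R178
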