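import Mathlib
import Crest.Agent.R178.Cone

/-!
The module `N ⊗ W` for a Chevalley–Eilenberg complex `W` is the cone of the invariant endomorphism.
-/

set_option autoImplicit false
set_option linter.unusedSectionVars false

namespace Crest.Agent.R178

open Polynomial

section
variable {B C S : Type} [Ring B] [Ring C] [Algebra ℂ B] [Algebra ℂ C] [Fintype S] [DecidableEq S]
  (T : Datum B C S) (Y : Type) [AddCommGroup Y] [Module C Y] [Module ℂ Y] [IsScalarTower ℂ C Y]

instance : Module ℂ (T.E Y) := inferInstanceAs (Module ℂ (S → Y))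

instance : IsScalarTower ℂ B (T.E Y) where
  smul_assoc c b z := by
    funext s
    change ∑ t, T.Θ (c • b) s t • (z t : Y) = c • ∑ t, T.Θ b s t • (z t : Y)
    simp only [map_smul, Matrix.smul_apply, smul_assoc, Finset.smul_sum]

end

variable {X : Type} [AddCommGroup X] [Module ℂ X]

namespace Ops

variable (o : Ops X) (h : o.Pos)

/-- a block of an element of `N ⊗ W` -/
def row (a : Fin 2) : TT.E (o.ModC h) →ₗ[ℂ] (Fin 2 → X) where
  toFun y := fun i => y (a, i)
  map_add' _ _ := rfl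
  map_smul' _ _ := rfl

theorem row_smul (b : BB) (y : TT.E (o.ModC h)) (a : Fin 2) :
    o.row h a (b • y) = mat2 ((theta' b a 0).map (o.repC h)) (o.row h 0 y) +
      mat2 ((theta' b a 1).map (o.repC h)) (o.row h 1 y) := by
  funext i
  change ∑ t, TT.Θ b (a, i) t • y t = _
  rw [Fintype.sum_prod_type, Fin.sum_univ_two, Fin.sum_univ_two, Fin.sum_univ_two, Pi.add_apply,
    mat2_apply, mat2_apply]
  rfl

theorem repC_x (k : Fin 4) : o.repC h (piB (bx k)) = o.x k := by rw [repC_piB, rep, liftB_x]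
theorem repC_d : o.repC h (piB bd) = o.d := by rw [repC_piB, rep, liftB_d]
theorem repC_D : o.repC h (piB bD) = o.D := by rw [repC_piB, rep, liftB_D]

theorem map_dg (c : CC) : (dg c).map (o.repC h) = dg (o.repC h c) := by
  ext i j
  fin_cases i <;> fin_cases j <;> simp [dg]

theorem map_dl (k : Fin 4) : (dl CC k).map (o.repC h) = dl (Module.End ℂ X) k := by
  ext i j
  fin_cases k <;> fin_cases i <;> fin_cases j <;> simp [dl]

theorem map_twd : (twd (fun k => piB (bx k)) (piB bd)).map (o.repC h) = twd o.x o.d := by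
  ext i j
  fin_cases i <;> fin_cases j <;> simp [twd, repC_x, repC_d]

theorem map_zero' : (0 : Matrix (Fin 2) (Fin 2) CC).map (o.repC h) = 0 := by
  ext i j
  simp

theorem map_neg' (m : Matrix (Fin 2) (Fin 2) CC) : (-m).map (o.repC h) = -m.map (o.repC h) := by
  ext i j
  simp

theorem theta'_x (k : Fin 4) :
    theta' (bx k) = !![dg (piB (bx k)), dl CC k; 0, -dg (piB (bx k))] := by
  rw [theta', liftB_x]

theorem theta'_d : theta' bd = !![twd (fun k => piB (bx k)) (piB bd), 0;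
    0, -twd (fun k => piB (bx k)) (piB bd)] := by
  rw [theta', liftB_d]

theorem theta'_D : theta' bD = !![dg (piB bD), 0; 0, dg (piB bD - 1)] := by
  rw [theta', liftB_D, dg_sub_one]

theorem row_x0 (k : Fin 4) (y : TT.E (o.ModC h)) :
    o.row h 0 (bx k • y) = o.tw.x k (o.row h 0 y) + mat2 (dl _ k) (o.row h 1 y) := by
  rw [row_smul, theta'_x]
  simp only [Matrix.of_apply, Matrix.cons_val', Matrix.cons_val_zero, Matrix.cons_val_one,
    Matrix.cons_val_fin_one]
  rw [map_dg, map_dl, repC_x]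
  rfl

theorem row_x1 (k : Fin 4) (y : TT.E (o.ModC h)) :
    o.row h 1 (bx k • y) = -o.tw.x k (o.row h 1 y) := by
  rw [row_smul, theta'_x]
  simp only [Matrix.of_apply, Matrix.cons_val', Matrix.cons_val_zero, Matrix.cons_val_one,
    Matrix.cons_val_fin_one]
  rw [map_zero', map_neg', map_dg, repC_x, map_zero, map_neg, LinearMap.zero_apply, zero_add]
  rfl

theorem row_d0 (y : TT.E (o.ModC h)) : o.row h 0 (bd • y) = o.tw.d (o.row h 0 y) := by
  rw [row_smul, theta'_d]
  simp only [Matrix.of_apply, Matrix.cons_val', Matrix.cons_val_zero, Matrix.cons_val_one,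
    Matrix.cons_val_fin_one]
  rw [map_zero', map_twd, map_zero, LinearMap.zero_apply, add_zero]
  rfl

theorem row_d1 (y : TT.E (o.ModC h)) : o.row h 1 (bd • y) = -o.tw.d (o.row h 1 y) := by
  rw [row_smul, theta'_d]
  simp only [Matrix.of_apply, Matrix.cons_val', Matrix.cons_val_zero, Matrix.cons_val_one,
    Matrix.cons_val_fin_one]
  rw [map_zero', map_neg', map_twd, map_zero, map_neg, LinearMap.zero_apply, zero_add]
  rfl

theorem row_D0 (y : TT.E (o.ModC h)) : o.row h 0 (bD • y) = o.tw.D (o.row h 0 y) := by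
  rw [row_smul, theta'_D]
  simp only [Matrix.of_apply, Matrix.cons_val', Matrix.cons_val_zero, Matrix.cons_val_one,
    Matrix.cons_val_fin_one]
  rw [map_zero', map_dg, repC_D, map_zero, LinearMap.zero_apply, add_zero]
  rfl

theorem row_D1 (y : TT.E (o.ModC h)) :
    o.row h 1 (bD • y) = o.tw.D (o.row h 1 y) - o.row h 1 y := by
  rw [row_smul, theta'_D]
  simp only [Matrix.of_apply, Matrix.cons_val', Matrix.cons_val_zero, Matrix.cons_val_one,
    Matrix.cons_val_fin_one]
  rw [map_zero', map_dg, map_sub, repC_D, map_one, ← dg_sub_one, map_zero, map_sub,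
    map_one, LinearMap.zero_apply, zero_add]
  rfl

section decomposition
variable {X' : Type} [AddCommGroup X'] [Module ℂ X'] (o' : Ops X') (h' : o'.Pos)
  (φ : Module.End ℂ X) (hφ : o.IsEnd φ)

/-- a pair as an element of `Fin 2 → X` -/
def pair {Y : Type} [AddCommGroup Y] [Module ℂ Y] (f g : Y →ₗ[ℂ] X) : Y →ₗ[ℂ] (Fin 2 → X) :=
  LinearMap.pi ![f, g]

@[simp] theorem pair_0 {Y : Type} [AddCommGroup Y] [Module ℂ Y] (f g : Y →ₗ[ℂ] X) (y : Y) :
    pair f g y 0 = f y := rfl
@[simp] theorem pair_1 {Y : Type} [AddCommGroup Y] [Module ℂ Y] (f g : Y →ₗ[ℂ] X) (y : Y) :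
    pair f g y 1 = g y := rfl

/-- a splitting of the endomorphism `φ` -/
structure Split (i : X' →ₗ[ℂ] X) (p : X →ₗ[ℂ] X') (c : ℂ) : Prop where
  hc : c ≠ 0
  ix : ∀ k w, i (o'.x k w) = o.x k (i w)
  id : ∀ w, i (o'.d w) = o.d (i w)
  iD : ∀ w, i (o'.D w) = o.D (i w)
  px : ∀ k w, p (o.x k w) = o'.x k (p w)
  pd : ∀ w, p (o.d w) = o'.d (p w)
  pD : ∀ w, p (o.D w) = o'.D (p w)
  sum : ∀ w, φ w + i (p w) = c • w
  pi : ∀ w, p (i w) = c • w

variable {o o' φ} {i : X' →ₗ[ℂ] X} {p : X →ₗ[ℂ] X'} {c : ℂ}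

theorem Split.pφ (s : o.Split o' φ i p c) (w : X) : p (φ w) = 0 := by
  have := congrArg p (s.sum w)
  rw [map_add, s.pi, map_smul] at this
  simpa using this

theorem Split.φi (s : o.Split o' φ i p c) (w : X') : φ (i w) = 0 := by
  have := s.sum (i w)
  rw [s.pi, map_smul] at this
  simpa using this

include hφ in
theorem φx (k : Fin 4) (w : X) : φ (o.x k w) = o.x k (φ w) := LinearMap.congr_fun (hφ.hx k) w
include hφ in
theorem φd (w : X) : φ (o.d w) = o.d (φ w) := LinearMap.congr_fun hφ.hd w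
include hφ in
theorem φD (w : X) : φ (o.D w) = o.D (φ w) := (LinearMap.congr_fun hφ.hD w).symm

noncomputable def in1 : (o.cone h φ hφ).Mod →ₗ[BB] (o.cone h 1 o.isEnd_one).Mod :=
  hom _ _ (pair (LinearMap.proj 0) (φ ∘ₗ LinearMap.proj 1))
    (fun k w => fin2_ext (by simp [cone_x0]) (by simp [cone_x1, φx hφ]))
    (fun w => fin2_ext (by simp [cone_d0]) (by simp [cone_d1, φd hφ]))
    (fun w => fin2_ext (by simp [cone_D0]) (by simp [cone_D1, φD hφ]))

noncomputable def out1 (c : ℂ) : (o.cone h 1 o.isEnd_one).Mod →ₗ[BB] (o.cone h φ hφ).Mod :=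
  hom _ _ (pair (c • φ ∘ₗ LinearMap.proj 0) (c • LinearMap.proj 1))
    (fun k w => fin2_ext (by simp [cone_x0, φx hφ]) (by simp [cone_x1]))
    (fun w => fin2_ext (by simp [cone_d0, φd hφ]) (by simp [cone_d1]))
    (fun w => fin2_ext (by simp [cone_D0, φD hφ]) (by simp [cone_D1, smul_sub]))

noncomputable def in2 (s : o.Split o' φ i p c) : (o.cone h φ hφ).Mod →ₗ[BB] o'.Mod :=
  hom _ _ (p ∘ₗ LinearMap.proj 0)
    (fun k w => by simp [cone_x0, s.px])
    (fun w => by simp [cone_d0, s.pd, s.pφ])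
    (fun w => by simp [cone_D0, s.pD])

noncomputable def out2 (s : o.Split o' φ i p c) : o'.Mod →ₗ[BB] (o.cone h φ hφ).Mod :=
  hom _ _ (pair (c⁻¹ • i) 0)
    (fun k w => fin2_ext (by simp [cone_x0, s.ix]) (by simp [cone_x1]))
    (fun w => fin2_ext (by simp [cone_d0, s.id]) (by simp [cone_d1]))
    (fun w => fin2_ext (by simp [cone_D0, s.iD]) (by simp [cone_D1]))

noncomputable def in3 (s : o.Split o' φ i p c) : (o.cone h φ hφ).Mod →ₗ[BB] (o'.neg h').Mod :=
  hom _ _ (p ∘ₗ LinearMap.proj 1)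
    (fun k w => by simp [cone_x1, s.px, neg])
    (fun w => by simp [cone_d1, s.pd, neg])
    (fun w => by simp [cone_D1, s.pD, neg])

noncomputable def out3 (s : o.Split o' φ i p c) : (o'.neg h').Mod →ₗ[BB] (o.cone h φ hφ).Mod :=
  hom _ _ (pair 0 (c⁻¹ • i))
    (fun k w => fin2_ext (by simp [cone_x0]) (by simp [cone_x1, s.ix, neg]))
    (fun w => fin2_ext (by simp [cone_d0, s.φi]) (by simp [cone_d1, s.id, neg]))
    (fun w => fin2_ext (by simp [cone_D0]) (by simp [cone_D1, s.iD, neg, smul_sub]))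

theorem in2_out2 (s : o.Split o' φ i p c) (w : o'.Mod) : in2 h hφ s (out2 h hφ s w) = w := by
  change p (c⁻¹ • i w) = w
  rw [map_smul, s.pi, smul_smul, inv_mul_cancel₀ s.hc, one_smul]

theorem decomp (s : o.Split o' φ i p c) (z : (o.cone h φ hφ).Mod) :
    out1 h hφ c⁻¹ (in1 h hφ z) + out2 h hφ s (in2 h hφ s z) +
      out3 h h' hφ s (in3 h h' hφ s z) = z := by
  have key : ∀ w, c⁻¹ • φ w + c⁻¹ • i (p w) = w := fun w => by
    rw [← smul_add, s.sum, smul_smul, inv_mul_cancel₀ s.hc, one_smul]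
  refine fin2_ext (Y := X) ?_ ?_
  · change c⁻¹ • φ (z 0) + c⁻¹ • i (p (z 0)) + 0 = z 0
    rw [add_zero, key]
  · change c⁻¹ • φ (z 1) + 0 + c⁻¹ • i (p (z 1)) = z 1
    rw [add_zero, key]

include h' in
theorem finPD_cone (s : o.Split o' φ i p c) (hF : o.LamFree) (hF' : o'.LamFree)
    (H : FinPD TT.A (TT.Infl o'.Mod)) : FinPD TT.A (TT.Infl (o.cone h φ hφ).Mod) :=
  FinPD.of_sum₃ (TT.inflMap (in1 h hφ)) (TT.inflMap (out1 h hφ c⁻¹))
    (TT.inflMap (in2 h hφ s)) (TT.inflMap (out2 h hφ s))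
    (TT.inflMap (in3 h h' hφ s)) (TT.inflMap (out3 h h' hφ s)) (decomp h h' hφ s)
    (o.finPD_cone_one h hF) H (o'.finPD_neg h' hF' H)

theorem finPD_cone_of_eq_one (hF : o.LamFree) (h1 : φ = 1) :
    FinPD TT.A (TT.Infl (o.cone h φ hφ).Mod) := by
  subst h1
  exact o.finPD_cone_one h hF

end decomposition

end Ops

/-- a space with fermionic operators and a `gl₂`-action -/
structure Fk (X : Type) [AddCommGroup X] [Module ℂ X] where
  x : Fin 4 → Module.End ℂ X
  ι : Fin 4 → Module.End ℂ X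
  e : Fin 4 → Module.End ℂ X
  fock : IsFock x ι e

namespace Fk

variable (F : Fk X)

/-- the Chevalley–Eilenberg complex, in degrees `1..5` -/
noncomputable def ops : Ops X where
  x := F.x
  d := dF F.x F.ι F.e
  D := nF F.x F.ι + 1
  ce := F.fock.isCE
  node := F.fock.node6

theorem ops_pos : F.ops.Pos := F.fock.eps0

/-- the invariant endomorphism -/
noncomputable def φ : Module.End ℂ (Fin 2 → X) := mat2 (phiM F.e)

theorem isEnd_φ : F.ops.tw.IsEnd F.φ where
  hx k := by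
    change mat2 _ * mat2 _ = mat2 _ * mat2 _
    rw [← map_mul, ← map_mul]
    exact congrArg mat2 (F.fock.phiM_x k)
  hd := by
    change mat2 _ * mat2 _ = mat2 _ * mat2 _
    rw [← map_mul, ← map_mul]
    exact congrArg mat2 F.fock.phiM_d
  hD := by
    change mat2 _ * mat2 _ = mat2 _ * mat2 _
    rw [← map_mul, ← map_mul]
    exact congrArg mat2 F.fock.phiM_D

/-- the cone -/
noncomputable abbrev K : Ops (Fin 2 → Fin 2 → X) :=
  F.ops.tw.cone (F.ops.tw_pos F.ops_pos) F.φ F.isEnd_φ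

/-- the contraction -/
noncomputable def I : Module.End ℂ (Fin 2 → X) := mat2 (iM F.ι)

theorem I_x (k : Fin 4) (w : Fin 2 → X) :
    F.I (F.ops.tw.x k w) = -F.ops.tw.x k (F.I w) - mat2 (dl _ k) w := by
  have := LinearMap.congr_fun (congrArg mat2 (F.fock.iM_x k)) w
  rw [map_add, map_mul, map_mul, map_neg] at this
  change F.I (F.ops.tw.x k w) + F.ops.tw.x k (F.I w) = -mat2 (dl _ k) w at this
  rw [eq_sub_of_add_eq this]
  abel

theorem I_d (w : Fin 2 → X) :
    F.I (F.ops.tw.d w) = F.φ w - F.ops.tw.d (F.I w) := by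
  have := LinearMap.congr_fun (congrArg mat2 F.fock.iM_d) w
  rw [map_add, map_mul, map_mul] at this
  change F.I (F.ops.tw.d w) + F.ops.tw.d (F.I w) = F.φ w at this
  rw [← this, add_sub_cancel_right]

theorem I_D (w : Fin 2 → X) :
    F.I (F.ops.tw.D w) = F.ops.tw.D (F.I w) + F.I w := by
  have := LinearMap.congr_fun (congrArg mat2 F.fock.iM_D) w
  rw [map_sub, map_mul, map_mul] at this
  change F.ops.tw.D (F.I w) = F.I (F.ops.tw.D w) - F.I w at this
  rw [this, sub_add_cancel]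

/-- the comparison map, `ℂ`-linear version -/
noncomputable def cmp0 : TT.E (F.ops.ModC F.ops_pos) →ₗ[ℂ] (Fin 2 → Fin 2 → X) :=
  Ops.pair (F.ops.row F.ops_pos 0 - F.I ∘ₗ F.ops.row F.ops_pos 1) (F.ops.row F.ops_pos 1)

theorem cmp0_0 (y : TT.E (F.ops.ModC F.ops_pos)) :
    F.cmp0 y 0 = F.ops.row F.ops_pos 0 y - F.I (F.ops.row F.ops_pos 1 y) := rfl

theorem cmp0_1 (y : TT.E (F.ops.ModC F.ops_pos)) : F.cmp0 y 1 = F.ops.row F.ops_pos 1 y := rfl

/-- the comparison map -/
noncomputable def cmp : TT.E (F.ops.ModC F.ops_pos) →ₗ[BB] F.K.Mod :=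
  dirB.mkLinear (M' := F.K.Mod) F.cmp0
    (fun y => by
      change F.cmp0 (bD • y) = (bD • (show F.K.Mod from F.cmp0 y) : F.K.Mod)
      rw [Ops.D_smul]
      refine fin2_ext ?_ ?_
      · rw [Ops.cone_D0, cmp0_0, cmp0_0, Ops.row_D0, Ops.row_D1, map_sub, map_sub, I_D]
        abel
      · rw [Ops.cone_D1, cmp0_1, cmp0_1, Ops.row_D1])
    (fun i y => by
      cases i with
      | none =>
        change F.cmp0 (bd • y) = (bd • (show F.K.Mod from F.cmp0 y) : F.K.Mod)
        rw [Ops.d_smul]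
        refine fin2_ext ?_ ?_
        · rw [Ops.cone_d0, cmp0_0, cmp0_0, cmp0_1, Ops.row_d0, Ops.row_d1, map_neg, map_sub, I_d]
          abel
        · rw [Ops.cone_d1, cmp0_1, cmp0_1, Ops.row_d1]
      | some k =>
        change F.cmp0 (bx k • y) = (bx k • (show F.K.Mod from F.cmp0 y) : F.K.Mod)
        rw [Ops.x_smul]
        refine fin2_ext ?_ ?_
        · rw [Ops.cone_x0, cmp0_0, cmp0_0, Ops.row_x0, Ops.row_x1, map_neg, map_sub, I_x]
          abel
        · rw [Ops.cone_x1, cmp0_1, cmp0_1, Ops.row_x1])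

theorem cmp_bijective : Function.Bijective F.cmp := by
  constructor
  · rw [injective_iff_map_eq_zero]
    intro y hy
    have h1 : F.ops.row F.ops_pos 1 y = 0 := congrFun (show F.cmp0 y = 0 from hy) 1
    have h0 : F.ops.row F.ops_pos 0 y - F.I (F.ops.row F.ops_pos 1 y) = 0 :=
      congrFun (show F.cmp0 y = 0 from hy) 0
    rw [h1, map_zero, sub_zero] at h0
    funext ⟨a, i⟩
    fin_cases a
    · exact congrFun h0 i
    · exact congrFun h1 i
  · intro z
    let z' : Fin 2 → Fin 2 → X := z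
    let y : Fin 2 → Fin 2 → X := ![z' 0 + F.I (z' 1), z' 1]
    refine ⟨fun s => y s.1 s.2, ?_⟩
    refine fin2_ext (Y := Fin 2 → X) ?_ rfl
    change z' 0 + F.I (z' 1) - F.I (z' 1) = z' 0
    rw [add_sub_cancel_right]

/-- `N ⊗ W` is the cone -/
noncomputable def eqv : TT.E (F.ops.ModC F.ops_pos) ≃ₗ[BB] F.K.Mod :=
  LinearEquiv.ofBijective F.cmp F.cmp_bijective

theorem finPD_E (H : FinPD TT.A (TT.Infl F.K.Mod)) :
    FinPD TT.A (TT.Infl (TT.E (F.ops.ModC F.ops_pos))) :=
  FinPD.of_retract (TT.inflMap F.eqv.toLinearMap) (TT.inflMap F.eqv.symm.toLinearMap)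
    (fun y => F.eqv.symm_apply_apply y) H

end Fk

end Crest.Agent.R178
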