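import Mathlib
import Crest.Agent.R178.Step

/-!
The Chevalley–Eilenberg complexes `Λ ⊗ Y` and the symmetric powers of the standard representation.
-/

set_option autoImplicit false
set_option linter.unusedSectionVars false
set_option linter.unusedSimpArgs false
set_option linter.unnecessarySeqFocus false

namespace Crest.Agent.R178

open TensorProduct

/-- the relations of `gl₂` -/
structure IsGL {R : Type} [Ring R] (e : Fin 4 → R) : Prop where
  e10 : e 1 * e 0 = e 0 * e 1 - e 1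
  e20 : e 2 * e 0 = e 0 * e 2 + e 2
  e30 : e 3 * e 0 = e 0 * e 3
  e21 : e 2 * e 1 = e 1 * e 2 - e 0 + e 3
  e31 : e 3 * e 1 = e 1 * e 3 - e 1
  e32 : e 3 * e 2 = e 2 * e 3 + e 2

/-- the exterior algebra on four generators -/
abbrev Lam : Type := ExteriorAlgebra ℂ (Fin 4 → ℂ)

instance : FiniteDimensional ℂ Lam :=
  Module.Finite.of_basis (Pi.basisFun ℂ (Fin 4)).ExteriorAlgebra

/-- generators -/
noncomputable def gL (k : Fin 4) : Lam := ExteriorAlgebra.ι ℂ (Pi.single k 1)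

/-- creation operators -/
noncomputable def xL (k : Fin 4) : Module.End ℂ Lam := LinearMap.mulLeft ℂ (gL k)

/-- annihilation operators -/
noncomputable def iL (k : Fin 4) : Module.End ℂ Lam :=
  CliffordAlgebra.contractLeft (Q := (0 : QuadraticForm ℂ (Fin 4 → ℂ))) (LinearMap.proj k)

theorem xL_anti (i j : Fin 4) : xL i * xL j = -(xL j * xL i) := by
  refine LinearMap.ext fun w => ?_
  change gL i * (gL j * w) = -(gL j * (gL i * w))
  rw [← mul_assoc, ← mul_assoc, ← neg_mul]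
  congr 1
  exact eq_neg_of_add_eq_zero_left (ExteriorAlgebra.ι_add_mul_swap _ _)

theorem xL_sq (i : Fin 4) : xL i * xL i = 0 := by
  refine LinearMap.ext fun w => ?_
  change gL i * (gL i * w) = 0
  rw [← mul_assoc, gL, ExteriorAlgebra.ι_sq_zero, zero_mul]

theorem iL_anti (i j : Fin 4) : iL i * iL j = -(iL j * iL i) :=
  LinearMap.ext fun w => CliffordAlgebra.contractLeft_comm _ _ w

theorem iL_sq (i : Fin 4) : iL i * iL i = 0 :=
  LinearMap.ext fun w => CliffordAlgebra.contractLeft_contractLeft _ w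

theorem iL_xL (i j : Fin 4) : iL i * xL j = (if i = j then 1 else 0) - xL j * iL i := by
  refine LinearMap.ext fun w => ?_
  have := CliffordAlgebra.contractLeft_ι_mul (Q := (0 : QuadraticForm ℂ (Fin 4 → ℂ)))
    (LinearMap.proj i) (Pi.single j 1) w
  refine this.trans ?_
  change _ - gL j * iL i w = (if i = j then (1 : Module.End ℂ Lam) else 0) w - gL j * iL i w
  congr 1
  split_ifs with h
  · subst h; simp
  · simp [Pi.single_eq_of_ne h]

theorem iL_one (i : Fin 4) : iL i 1 = 0 := CliffordAlgebra.contractLeft_one _ _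

section
variable {Y : Type} [AddCommGroup Y] [Module ℂ Y] {e : Fin 4 → Module.End ℂ Y}

theorem lT_rT {Y' : Type} [AddCommGroup Y'] [Module ℂ Y'] (u : Y →ₗ[ℂ] Y') (f : Module.End ℂ Lam)
    (w : Lam ⊗[ℂ] Y) : u.lTensor Lam (f.rTensor Y w) = f.rTensor Y' (u.lTensor Lam w) := by
  induction w with
  | zero => simp
  | add a b ha hb => simp [ha, hb]
  | tmul a b => simp

/-- the Chevalley–Eilenberg complex of a `gl₂`-module -/
noncomputable def fkOf (he : IsGL e) : Fk (Lam ⊗[ℂ] Y) where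
  x k := Module.End.rTensorAlgHom ℂ Lam Y (xL k)
  ι k := Module.End.rTensorAlgHom ℂ Lam Y (iL k)
  e k := Module.End.lTensorAlgHom ℂ Y Lam (e k)
  fock :=
    { anti := fun i j => by rw [← map_mul, ← map_mul, ← map_neg, xL_anti]
      sq := fun i => by rw [← map_mul, xL_sq, map_zero]
      ιanti := fun i j => by rw [← map_mul, ← map_mul, ← map_neg, iL_anti]
      ιsq := fun i => by rw [← map_mul, iL_sq, map_zero]
      car := fun i j => by
        rw [← map_mul, ← map_mul, iL_xL, map_sub]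
        split_ifs <;> simp
      ex := fun i j => LinearMap.ext fun w => lT_rT _ _ w
      eι := fun i j => LinearMap.ext fun w => lT_rT _ _ w
      e10 := by rw [← map_mul, he.e10, map_sub, map_mul]
      e20 := by rw [← map_mul, he.e20, map_add, map_mul]
      e30 := by rw [← map_mul, he.e30, map_mul]
      e21 := by rw [← map_mul, he.e21, map_add, map_sub, map_mul]
      e31 := by rw [← map_mul, he.e31, map_sub, map_mul]
      e32 := by rw [← map_mul, he.e32, map_add, map_mul] }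

theorem fkOf_x (he : IsGL e) (k : Fin 4) (w : Lam ⊗[ℂ] Y) :
    (fkOf he).x k w = (xL k).rTensor Y w := rfl
theorem fkOf_ι (he : IsGL e) (k : Fin 4) (w : Lam ⊗[ℂ] Y) :
    (fkOf he).ι k w = (iL k).rTensor Y w := rfl
theorem fkOf_e (he : IsGL e) (k : Fin 4) (w : Lam ⊗[ℂ] Y) :
    (fkOf he).e k w = (e k).lTensor Lam w := rfl

theorem iota_eq_sum (m : Fin 4 → ℂ) : ExteriorAlgebra.ι ℂ m = ∑ k, m k • gL k := by
  conv_lhs => rw [pi_eq_sum_univ' m, map_sum]
  simp [gL]

theorem fkOf_lamFree (he : IsGL e) : (fkOf he).ops.LamFree := by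
  refine ⟨Y, inferInstance, inferInstance, TensorProduct.mk ℂ Lam Y 1, fun z => ?_,
    fun U hU hU' w => ?_, fun M _ _ η ha hs u0 => ?_⟩
  · change (nF (fkOf he).x (fkOf he).ι + 1) ((1 : Lam) ⊗ₜ z) = (1 : Lam) ⊗ₜ z
    simp [nF, fkOf_ι, iL_one]
  · induction w with
    | zero => exact U.zero_mem
    | add a b ha hb => exact U.add_mem ha hb
    | tmul a y =>
      induction a using CliffordAlgebra.left_induction with
      | algebraMap r =>
        rw [Algebra.algebraMap_eq_smul_one, ← TensorProduct.smul_tmul']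
        exact U.smul_mem r (hU y)
      | add a b ha hb => rw [TensorProduct.add_tmul]; exact U.add_mem ha hb
      | ι_mul a m ha =>
        have : (CliffordAlgebra.ι (0 : QuadraticForm ℂ (Fin 4 → ℂ)) m * a) =
            ∑ k, m k • (gL k * a) := by
          rw [show CliffordAlgebra.ι (0 : QuadraticForm ℂ (Fin 4 → ℂ)) m = _ from iota_eq_sum m,
            Finset.sum_mul]
          simp
        rw [this, TensorProduct.sum_tmul]
        refine U.sum_mem fun k _ => ?_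
        rw [← TensorProduct.smul_tmul']
        exact U.smul_mem _ (hU' k _ ha)
  · let f : (Fin 4 → ℂ) →ₗ[ℂ] Module.End ℂ M := Fintype.linearCombination ℂ η
    have hf : ∀ m, f m * f m = 0 := fun m => by
      simp only [f, Fintype.linearCombination_apply, Fin.sum_univ_four, add_mul, mul_add,
        smul_mul_smul_comm, hs, ha 1 0, ha 2 0, ha 3 0, ha 2 1, ha 3 1, ha 3 2]
      module
    let χ : Lam →ₐ[ℂ] Module.End ℂ M := ExteriorAlgebra.lift ℂ ⟨f, hf⟩
    have hχ : ∀ k, χ (gL k) = η k := fun k => by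
      rw [gL, ExteriorAlgebra.lift_ι_apply]
      simp [f]
    refine ⟨TensorProduct.lift ((LinearMap.lcomp ℂ M u0).comp χ.toLinearMap), fun z => ?_,
      fun k w => ?_⟩
    · simp
    · change TensorProduct.lift _ ((xL k).rTensor Y w) = _
      induction w with
      | zero => simp
      | add a b ha hb => simp only [map_add, ha, hb]
      | tmul a y => simp [xL, hχ]

end

/-- polynomials in two variables -/
abbrev PP : Type := MvPolynomial (Fin 2) ℂ

open MvPolynomial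

theorem pderiv_comm' (i j : Fin 2) (p : PP) : pderiv i (pderiv j p) = pderiv j (pderiv i p) := by
  induction p using MvPolynomial.induction_on with
  | C a => simp
  | add p q hp hq => simp [hp, hq]
  | mul_X p k hp =>
    simp only [pderiv_mul, map_add, hp]
    have h1 : ∀ a b : Fin 2, pderiv a (pderiv b (X k : PP)) = 0 := fun a b => by
      by_cases h : k = b
      · subst h; simp
      · simp [pderiv_X_of_ne h]
    rw [h1, h1]
    ring

/-- homogeneous polynomials of degree `n` -/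
abbrev YY (n : ℕ) : Type := homogeneousSubmodule (Fin 2) ℂ n

instance (n : ℕ) : FiniteDimensional ℂ (YY n) :=
  Module.Finite.iff_fg.2 (homogeneousSubmodule_fg (Fin 2) ℂ n)

/-- multiplication by a variable -/
noncomputable def up (n : ℕ) (j : Fin 2) : YY n →ₗ[ℂ] YY (n + 1) :=
  (LinearMap.mulLeft ℂ (X j : PP)).restrict fun p hp => by
    have := (isHomogeneous_X ℂ j).mul hp
    rwa [add_comm] at this

/-- partial derivative -/
noncomputable def dn (n : ℕ) (j : Fin 2) : YY (n + 1) →ₗ[ℂ] YY n :=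
  (pderiv j : Derivation ℂ PP PP).toLinearMap.restrict fun _ hp => IsHomogeneous.pderiv hp

/-- the operators `xᵢ ∂ⱼ` -/
noncomputable def ee (n : ℕ) (i j : Fin 2) : Module.End ℂ (YY n) :=
  (LinearMap.mulLeft ℂ (X i : PP) ∘ₗ (pderiv j : Derivation ℂ PP PP).toLinearMap).restrict
    fun p hp => by
      rcases n with _ | n
      · have hp' : p.IsHomogeneous 0 := hp
        rw [← totalDegree_zero_iff_isHomogeneous, totalDegree_eq_zero_iff_eq_C] at hp'
        rw [hp']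
        simp
      · have := (isHomogeneous_X ℂ i).mul (IsHomogeneous.pderiv (i := j) hp)
        rwa [add_comm] at this

@[simp] theorem up_val (n : ℕ) (j : Fin 2) (p : YY n) : (up n j p : PP) = X j * (p : PP) := rfl
@[simp] theorem dn_val (n : ℕ) (j : Fin 2) (p : YY (n + 1)) : (dn n j p : PP) = pderiv j (p : PP) :=
  rfl
@[simp] theorem ee_val (n : ℕ) (i j : Fin 2) (p : YY n) :
    (ee n i j p : PP) = X i * pderiv j (p : PP) := rfl

/-- the `gl₂`-action -/
noncomputable def eY (n : ℕ) : Fin 4 → Module.End ℂ (YY n) :=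
  ![ee n 0 0, ee n 0 1, ee n 1 0, ee n 1 1]

theorem isGL_eY (n : ℕ) : IsGL (eY n) := by
  refine ⟨?_, ?_, ?_, ?_, ?_, ?_⟩ <;>
  · refine LinearMap.ext fun p => Subtype.ext ?_
    simp [eY, pderiv_mul, pderiv_X, pderiv_comm' 1 0]
    ring

theorem euler (n : ℕ) (p : YY n) :
    (X 0 : PP) * pderiv 0 (p : PP) + X 1 * pderiv 1 (p : PP) = (n : PP) * (p : PP) := by
  have := IsHomogeneous.sum_X_mul_pderiv (φ := (p : PP)) p.2
  rw [Fin.sum_univ_two, nsmul_eq_mul] at this
  exact this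

/-- the Fock spaces -/
noncomputable def FF (n : ℕ) : Fk (Lam ⊗[ℂ] YY n) := fkOf (isGL_eY n)

noncomputable def UU (n : ℕ) (j : Fin 2) : Lam ⊗[ℂ] YY n →ₗ[ℂ] Lam ⊗[ℂ] YY (n + 1) :=
  (up n j).lTensor Lam

noncomputable def DD (n : ℕ) (j : Fin 2) : Lam ⊗[ℂ] YY (n + 1) →ₗ[ℂ] Lam ⊗[ℂ] YY n :=
  (dn n j).lTensor Lam

theorem UU_x (n : ℕ) (j : Fin 2) (k : Fin 4) (w : Lam ⊗[ℂ] YY n) :
    UU n j ((FF n).x k w) = (FF (n + 1)).x k (UU n j w) := lT_rT _ _ w
theorem UU_ι (n : ℕ) (j : Fin 2) (k : Fin 4) (w : Lam ⊗[ℂ] YY n) :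
    UU n j ((FF n).ι k w) = (FF (n + 1)).ι k (UU n j w) := lT_rT _ _ w
theorem DD_x (n : ℕ) (j : Fin 2) (k : Fin 4) (w : Lam ⊗[ℂ] YY (n + 1)) :
    DD n j ((FF (n + 1)).x k w) = (FF n).x k (DD n j w) := lT_rT _ _ w
theorem DD_ι (n : ℕ) (j : Fin 2) (k : Fin 4) (w : Lam ⊗[ℂ] YY (n + 1)) :
    DD n j ((FF (n + 1)).ι k w) = (FF n).ι k (DD n j w) := lT_rT _ _ w

/-- transfer of identities to the tensor product -/
macro "tensor_id" : tactic => `(tactic| (
  intro w
  induction w with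
  | zero => simp
  | add a b ha hb => simp only [map_add, smul_add, ha, hb]; try abel
  | tmul a y =>
    simp only [UU, DD, FF, fkOf_e, LinearMap.lTensor_tmul, ← TensorProduct.tmul_add,
      ← TensorProduct.tmul_sub, ← TensorProduct.tmul_smul, ← TensorProduct.tmul_neg]
    congr 1
    apply Subtype.ext
    simp [eY, pderiv_mul, pderiv_X, pderiv_comm' 1 0]
    try ring))

theorem U0e0 (n : ℕ) : ∀ w, UU n 0 ((FF n).e 0 w) = (FF (n + 1)).e 0 (UU n 0 w) - UU n 0 w := by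
  tensor_id
theorem U0e1 (n : ℕ) : ∀ w, UU n 0 ((FF n).e 1 w) = (FF (n + 1)).e 1 (UU n 0 w) := by
  tensor_id
theorem U0e2 (n : ℕ) : ∀ w, UU n 0 ((FF n).e 2 w) = (FF (n + 1)).e 2 (UU n 0 w) - UU n 1 w := by
  tensor_id
theorem U0e3 (n : ℕ) : ∀ w, UU n 0 ((FF n).e 3 w) = (FF (n + 1)).e 3 (UU n 0 w) := by
  tensor_id
theorem U1e0 (n : ℕ) : ∀ w, UU n 1 ((FF n).e 0 w) = (FF (n + 1)).e 0 (UU n 1 w) := by
  tensor_id
theorem U1e1 (n : ℕ) : ∀ w, UU n 1 ((FF n).e 1 w) = (FF (n + 1)).e 1 (UU n 1 w) - UU n 0 w := by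
  tensor_id
theorem U1e2 (n : ℕ) : ∀ w, UU n 1 ((FF n).e 2 w) = (FF (n + 1)).e 2 (UU n 1 w) := by
  tensor_id
theorem U1e3 (n : ℕ) : ∀ w, UU n 1 ((FF n).e 3 w) = (FF (n + 1)).e 3 (UU n 1 w) - UU n 1 w := by
  tensor_id

theorem D0e0 (n : ℕ) : ∀ w, DD n 0 ((FF (n + 1)).e 0 w) = (FF n).e 0 (DD n 0 w) + DD n 0 w := by
  tensor_id
theorem D0e1 (n : ℕ) : ∀ w, DD n 0 ((FF (n + 1)).e 1 w) = (FF n).e 1 (DD n 0 w) + DD n 1 w := by
  tensor_id
theorem D0e2 (n : ℕ) : ∀ w, DD n 0 ((FF (n + 1)).e 2 w) = (FF n).e 2 (DD n 0 w) := by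
  tensor_id
theorem D0e3 (n : ℕ) : ∀ w, DD n 0 ((FF (n + 1)).e 3 w) = (FF n).e 3 (DD n 0 w) := by
  tensor_id
theorem D1e0 (n : ℕ) : ∀ w, DD n 1 ((FF (n + 1)).e 0 w) = (FF n).e 0 (DD n 1 w) := by
  tensor_id
theorem D1e1 (n : ℕ) : ∀ w, DD n 1 ((FF (n + 1)).e 1 w) = (FF n).e 1 (DD n 1 w) := by
  tensor_id
theorem D1e2 (n : ℕ) : ∀ w, DD n 1 ((FF (n + 1)).e 2 w) = (FF n).e 2 (DD n 1 w) + DD n 0 w := by
  tensor_id
theorem D1e3 (n : ℕ) : ∀ w, DD n 1 ((FF (n + 1)).e 3 w) = (FF n).e 3 (DD n 1 w) + DD n 1 w := by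
  tensor_id

theorem e0_eq (n : ℕ) (w : Lam ⊗[ℂ] YY (n + 1)) : (FF (n + 1)).e 0 w = UU n 0 (DD n 0 w) :=
  LinearMap.lTensor_comp_apply Lam (up n 0) (dn n 0) w
theorem e1_eq (n : ℕ) (w : Lam ⊗[ℂ] YY (n + 1)) : (FF (n + 1)).e 1 w = UU n 0 (DD n 1 w) :=
  LinearMap.lTensor_comp_apply Lam (up n 0) (dn n 1) w
theorem e2_eq (n : ℕ) (w : Lam ⊗[ℂ] YY (n + 1)) : (FF (n + 1)).e 2 w = UU n 1 (DD n 0 w) :=
  LinearMap.lTensor_comp_apply Lam (up n 1) (dn n 0) w
theorem e3_eq (n : ℕ) (w : Lam ⊗[ℂ] YY (n + 1)) : (FF (n + 1)).e 3 w = UU n 1 (DD n 1 w) :=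
  LinearMap.lTensor_comp_apply Lam (up n 1) (dn n 1) w

theorem euler_e (n : ℕ) : ∀ w, (FF n).e 0 w + (FF n).e 3 w = (n : ℂ) • w := by
  intro w
  induction w with
  | zero => simp
  | add a b ha hb => simp only [map_add, smul_add, ← ha, ← hb]; abel
  | tmul a y =>
    simp only [FF, fkOf_e, LinearMap.lTensor_tmul, ← TensorProduct.tmul_add,
      ← TensorProduct.tmul_smul]
    congr 1
    apply Subtype.ext
    have := euler n y
    simp [eY, this, Algebra.smul_def]

theorem DU (n : ℕ) : ∀ w, DD n 0 (UU n 0 w) + DD n 1 (UU n 1 w) = ((n : ℂ) + 2) • w := by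
  intro w
  induction w with
  | zero => simp
  | add a b ha hb => simp only [map_add, smul_add, ← ha, ← hb]; abel
  | tmul a y =>
    simp only [UU, DD, LinearMap.lTensor_tmul, ← TensorProduct.tmul_add,
      ← TensorProduct.tmul_smul]
    congr 1
    apply Subtype.ext
    have := euler n y
    simp [pderiv_mul, pderiv_X, Algebra.smul_def, map_ofNat]
    linear_combination this

theorem e_zero (k : Fin 4) : (FF 0).e k = 0 := by
  have : eY 0 k = 0 := by
    refine LinearMap.ext fun p => Subtype.ext ?_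
    have hp' : (p : PP).IsHomogeneous 0 := p.2
    rw [← totalDegree_zero_iff_isHomogeneous, totalDegree_eq_zero_iff_eq_C] at hp'
    have h0 : ∀ j, pderiv j (p : PP) = 0 := fun j => by rw [hp', pderiv_C]
    fin_cases k <;> simp [eY, h0]
  change Module.End.lTensorAlgHom ℂ _ Lam (eY 0 k) = 0
  rw [this, map_zero]

theorem phi_zero : (FF 0).φ = 1 := by
  rw [Fk.φ, ← map_one mat2]
  congr 1
  refine Matrix.ext fun i j => ?_
  fin_cases i <;> fin_cases j <;> simp [phiM, e_zero]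

theorem ops_d {X : Type} [AddCommGroup X] [Module ℂ X] (F : Fk X) (w : X) :
    F.ops.d w = F.x 0 (F.e 0 w) + F.x 1 (F.e 1 w) + F.x 2 (F.e 2 w) + F.x 3 (F.e 3 w)
      - F.x 1 (F.x 2 (F.ι 0 w)) - F.x 0 (F.x 1 (F.ι 1 w)) - F.x 1 (F.x 3 (F.ι 1 w))
      + F.x 0 (F.x 2 (F.ι 2 w)) + F.x 2 (F.x 3 (F.ι 2 w)) + F.x 1 (F.x 2 (F.ι 3 w)) := rfl

theorem ops_D {X : Type} [AddCommGroup X] [Module ℂ X] (F : Fk X) (w : X) :
    F.ops.D w = F.x 0 (F.ι 0 w) + F.x 1 (F.ι 1 w) + F.x 2 (F.ι 2 w) + F.x 3 (F.ι 3 w) + w := rfl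

theorem ops_x {X : Type} [AddCommGroup X] [Module ℂ X] (F : Fk X) (k : Fin 4) (w : X) :
    F.ops.x k w = F.x k w := rfl

theorem phi_0 {X : Type} [AddCommGroup X] [Module ℂ X] (F : Fk X) (w : Fin 2 → X) :
    F.φ w 0 = F.e 3 (w 0) + w 0 - F.e 1 (w 1) := by
  simp [Fk.φ, mat2_apply, phiM, sub_eq_add_neg]

theorem phi_1 {X : Type} [AddCommGroup X] [Module ℂ X] (F : Fk X) (w : Fin 2 → X) :
    F.φ w 1 = F.e 0 (w 1) + w 1 - F.e 2 (w 0) := by
  simp only [Fk.φ, mat2_apply, phiM]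
  simp
  abel

theorem split (n : ℕ) : (FF (n + 1)).ops.tw.Split (FF n).ops (FF (n + 1)).φ
    (Ops.pair (UU n 0) (UU n 1)) (DD n 0 ∘ₗ LinearMap.proj 0 + DD n 1 ∘ₗ LinearMap.proj 1)
    ((n : ℂ) + 2) where
  hc := by exact_mod_cast (by omega : n + 2 ≠ 0)
  ix k w := fin2_ext (by simp [Ops.tw_x, ops_x, UU_x]) (by simp [Ops.tw_x, ops_x, UU_x])
  id w := by
    refine fin2_ext ?_ ?_
    · simp only [Ops.pair_0, Ops.pair_1, Ops.tw_d0, ops_d, ops_x, map_add, map_sub, UU_x, UU_ι,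
        U0e0, U0e1, U0e2, U0e3]
      abel
    · simp only [Ops.pair_0, Ops.pair_1, Ops.tw_d1, ops_d, ops_x, map_add, map_sub, UU_x, UU_ι,
        U1e0, U1e1, U1e2, U1e3]
      abel
  iD w := fin2_ext (by simp [Ops.tw_D, ops_D, UU_x, UU_ι]) (by simp [Ops.tw_D, ops_D, UU_x, UU_ι])
  px k w := by simp [Ops.tw_x, ops_x, DD_x]
  pd w := by
    simp only [LinearMap.add_apply, LinearMap.comp_apply, LinearMap.proj_apply, Ops.tw_d0,
      Ops.tw_d1, ops_d, ops_x, map_add, map_sub, DD_x, DD_ι,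
      D0e0, D0e1, D0e2, D0e3, D1e0, D1e1, D1e2, D1e3]
    abel
  pD w := by
    simp only [LinearMap.add_apply, LinearMap.comp_apply, LinearMap.proj_apply, Ops.tw_D, ops_D,
      map_add, DD_x, DD_ι]
  sum w := by
    have h0 := euler_e (n + 1) (w 0)
    have h1 := euler_e (n + 1) (w 1)
    refine fin2_ext ?_ ?_
    · simp only [Pi.add_apply, Pi.smul_apply, Ops.pair_0, phi_0, LinearMap.add_apply,
        LinearMap.comp_apply, LinearMap.proj_apply, map_add, ← e0_eq, ← e1_eq]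
      push_cast at h0
      linear_combination (norm := module) h0
    · simp only [Pi.add_apply, Pi.smul_apply, Ops.pair_1, phi_1, LinearMap.add_apply,
        LinearMap.comp_apply, LinearMap.proj_apply, map_add, ← e2_eq, ← e3_eq]
      push_cast at h1
      linear_combination (norm := module) h1
  pi w := DU n w

/-- the modules -/
abbrev WW (n : ℕ) : Type := (FF n).ops.ModC (FF n).ops_pos

theorem main (k : ℕ) :
    ∃ N : ModuleCat.{0} TT.A, Module.Finite TT.A N ∧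
      ¬ CategoryTheory.HasProjectiveDimensionLT N k ∧
      ∃ n : ℕ, CategoryTheory.HasProjectiveDimensionLT N n := by
  have hF : ∀ n, (FF n).ops.LamFree := fun n => fkOf_lamFree _
  refine TT.unbounded WW (fun n => ?_) (fun n => dirC.finPD _) ?_ (fun n H => ?_)
    (fun n => (FF (n + 1)).eqv.symm.toLinearMap ∘ₗ Ops.out2 _ (FF (n + 1)).isEnd_φ (split n) ∘ₗ
      (FF n).ops.ofRes (FF n).ops_pos)
    (fun n => (FF n).ops.toRes (FF n).ops_pos ∘ₗ Ops.in2 _ (FF (n + 1)).isEnd_φ (split n) ∘ₗ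
      (FF (n + 1)).eqv.toLinearMap) (fun n x => ?_) ?_ k
  · have : Module.Finite ℂ (WW n) := inferInstanceAs (Module.Finite ℂ (Lam ⊗[ℂ] YY n))
    exact Module.Finite.of_restrictScalars_finite ℂ CC (WW n)
  · exact (FF 0).finPD_E (Ops.finPD_cone_of_eq_one _ _ (hF 0).tw phi_zero)
  · exact (FF (n + 1)).finPD_E (Ops.finPD_cone _ (FF n).ops_pos _ (split n) (hF (n + 1)).tw (hF n)
      (FinPD.of_retract (TT.inflMap ((FF n).ops.toRes (FF n).ops_pos))
        (TT.inflMap ((FF n).ops.ofRes (FF n).ops_pos)) (fun _ => rfl) H))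
  · simp only [LinearMap.comp_apply, LinearEquiv.coe_coe, LinearEquiv.apply_symm_apply]
    rw [Ops.in2_out2]
    rfl
  · have : Nontrivial (YY 0) := ⟨⟨0, ⟨1, isHomogeneous_one _ _⟩, fun h => by
      have := congrArg Subtype.val h
      simp at this⟩⟩
    exact inferInstanceAs (Nontrivial (Lam ⊗[ℂ] YY 0))

end Crest.Agent.R178
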